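import Vale.Agent.P236T.Fil

/-!
# P236, block TABC: certificates for the tables (semantic form)
-/

set_option linter.unusedSectionVars false

noncomputable section

namespace Vale.Agent.P236T

open Vale.Agent.P236A Vale.Agent.P236K MvPolynomial

variable {ι : Type} [Fintype ι] [DecidableEq ι] {k : Type} [CommRing k]

/-- An enumeration of the monomials `v ^ K g` without `v_1` of degree `s` and weight `2 e`. -/
structure Lay (Γ : Gens ι) (N : ℕ) where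
  /-- the stride -/
  B : ℕ → ℕ
  /-- the number of monomials -/
  len : ℕ → ℕ → ℕ
  /-- the generator -/
  gen : ℕ → ℕ → ℕ → ι
  /-- the monomial -/
  mon : ℕ → ℕ → ℕ → ℕ →₀ ℕ
  B_pos : ∀ s, 0 < B s
  len_le : ∀ s e, e ≤ N → len s e ≤ B s
  mon_zero : ∀ s e q, mon s e q 0 = 0
  wt : ∀ s e q, e ≤ N → q < len s e →
    Γ.deg (gen s e q) = s ∧ mz 3 (mon s e q) + Γ.wt (gen s e q) = 2 * (e : ℤ)
  inj : ∀ s e q q', e ≤ N → q < len s e → q' < len s e → gen s e q = gen s e q' →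
    mon s e q = mon s e q' → q = q'
  surj : ∀ s e g K, e ≤ N → Γ.deg g = s → K 0 = 0 → mz 3 K + Γ.wt g = 2 * (e : ℤ) →
    ∃ q < len s e, gen s e q = g ∧ mon s e q = K
  even : ∀ g, 2 ∣ Γ.wt g

variable {Γ : Gens ι} {N : ℕ}

namespace Lay

variable (L : Lay Γ N)

/-- the valid positions in the cell `(s, T)` -/
def Val (s T r : ℕ) : Prop := r / L.B s ≤ T ∧ r % L.B s < L.len s (T - r / L.B s)

instance (s T r : ℕ) : Decidable (L.Val s T r) := inferInstanceAs (Decidable (_ ∧ _))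

/-- the generator at the position `r` of the cell `(s, T)` -/
def gg (s T r : ℕ) : ι := L.gen s (T - r / L.B s) (r % L.B s)

/-- the monomial at the position `r` of the cell `(s, T)` -/
def mm (s T r : ℕ) : ℕ →₀ ℕ :=
  Finsupp.single 0 (r / L.B s) + L.mon s (T - r / L.B s) (r % L.B s)

/-- the coordinate number `r` of the cell `(s, T)` -/
def cf (k : Type) [CommRing k] (s T r : ℕ) : (ι → Av k) →ₗ[k] k :=
  if L.Val s T r then lcoeff k (L.mm s T r) ∘ₗ LinearMap.proj (L.gg s T r) else 0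

theorem cf_val {s T r : ℕ} (h : L.Val s T r) (c : ι → Av k) :
    L.cf k s T r c = coeff (L.mm s T r) (c (L.gg s T r)) := by
  rw [cf, if_pos h]
  rfl

theorem cf_not {s T r : ℕ} (h : ¬L.Val s T r) (c : ι → Av k) : L.cf k s T r c = 0 := by
  rw [cf, if_neg h]
  rfl

theorem mm_zero (s T r : ℕ) : L.mm s T r 0 = r / L.B s := by simp [mm, L.mon_zero]

theorem cf_Fil {s T r l : ℕ} {c : ι → Av k} (hc : c ∈ Fil k l) (hr : r < l * L.B s) :
    L.cf k s T r c = 0 := by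
  by_cases h : L.Val s T r
  · rw [L.cf_val h]
    exact dvd_iff_coeff.1 (hc _) _ (by rwa [mm_zero, Nat.div_lt_iff_lt_mul (L.B_pos s)])
  · exact L.cf_not h c

theorem cf_shift (s T r d : ℕ) (c : ι → Av k) :
    L.cf k s (T + d) (r + d * L.B s) ((X 0 : Av k) ^ d • c) = L.cf k s T r c := by
  have h1 : (r + d * L.B s) / L.B s = r / L.B s + d := Nat.add_mul_div_right _ _ (L.B_pos s)
  have h2 : (r + d * L.B s) % L.B s = r % L.B s := Nat.add_mul_mod_self_right _ _ _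
  have h3 : L.Val s (T + d) (r + d * L.B s) ↔ L.Val s T r := by
    rw [Val, h1, h2, Nat.add_sub_add_right, Nat.add_le_add_iff_right, Val]
  by_cases h : L.Val s T r
  · rw [L.cf_val h, L.cf_val (h3.2 h), mm, gg, h1, h2, Nat.add_sub_add_right, Pi.smul_apply,
      smul_eq_mul, X_pow_eq_monomial, add_comm _ d, Finsupp.single_add, add_assoc,
      coeff_monomial_mul, one_mul]
    rfl
  · rw [L.cf_not h, L.cf_not (mt h3.1 h)]

theorem exists_val {s T : ℕ} (hT : T ≤ N) {g : ι} {K : ℕ →₀ ℕ} (hg : Γ.deg g = s)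
    (hK : mz 3 K + Γ.wt g = 2 * (T : ℤ)) :
    ∃ r, L.Val s T r ∧ r / L.B s = K 0 ∧ L.gg s T r = g ∧ L.mm s T r = K := by
  have h1 : K = Finsupp.single 0 (K 0) + K.erase 0 := (Finsupp.single_add_erase _ _).symm
  have h2 : mz 3 K = 2 * (K 0 : ℤ) + mz 3 (K.erase 0) := by
    conv_lhs => rw [h1]
    simp [mz, Finsupp.weight_single, wz, mul_comm]
  have h3 := mz_nonneg 3 (K.erase 0)
  have h4 : K 0 ≤ T := by omega
  obtain ⟨q, hq, h5, h6⟩ := L.surj s (T - K 0) g (K.erase 0) (by omega) hg (by simp) (by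
    push_cast [h4]
    omega)
  have h7 : q < L.B s := hq.trans_le (L.len_le _ _ (by omega))
  have h8 : (q + K 0 * L.B s) / L.B s = K 0 := by
    rw [Nat.add_mul_div_right _ _ (L.B_pos s), Nat.div_eq_of_lt h7, zero_add]
  have h9 : (q + K 0 * L.B s) % L.B s = q := by
    rw [Nat.add_mul_mod_self_right, Nat.mod_eq_of_lt h7]
  refine ⟨q + K 0 * L.B s, ?_, h8, ?_, ?_⟩
  · rw [Val, h8, h9]
    exact ⟨h4, hq⟩
  · rw [gg, h8, h9, h5]
  · rw [mm, h8, h9, h6, ← h1]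

theorem Fil_of_cf {s T l : ℕ} (hT : T ≤ N) {c : ι → Av k} (hc : Cl Γ s T c)
    (h : ∀ r < l * L.B s, L.cf k s T r c = 0) : c ∈ Fil k l := fun g =>
  dvd_iff_coeff.2 fun K hK => by
    by_contra h0
    have hg : Γ.deg g = s := by
      by_contra hg
      exact h0 (by rw [(hc g).2 hg, coeff_zero])
    obtain ⟨r, h1, h2, rfl, rfl⟩ := L.exists_val hT hg
      (eq_sub_iff_add_eq.1 ((hc g).1 h0 : mz 3 K = _))
    exact h0 (L.cf_val h1 c ▸ h r ((Nat.div_lt_iff_lt_mul (L.B_pos s)).1 (h2 ▸ hK)))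

/-- the dimension of the cell -/
def dim (s T : ℕ) : ℕ := ∑ l ∈ Finset.range (T + 1), L.len s (T - l)

theorem finrank_le {s T : ℕ} (hT : T ≤ N) : Module.Finite (ZMod 3) (ClS Γ (ZMod 3) s T) ∧
    Module.finrank (ZMod 3) (ClS Γ (ZMod 3) s T) ≤ L.dim s T := by
  let f : ClS Γ (ZMod 3) s T →ₗ[ZMod 3] ((Σ l : Fin (T + 1), Fin (L.len s (T - l))) → ZMod 3) :=
    LinearMap.pi fun p => L.cf _ s T (p.2 + p.1 * L.B s) ∘ₗ Submodule.subtype _
  have hf : Function.Injective f := (injective_iff_map_eq_zero f).2 fun c hc => by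
    have h1 := L.Fil_of_cf (l := T + 1) hT c.2 fun r _ => by
      by_cases h : L.Val s T r
      · have := congrFun hc ⟨⟨r / L.B s, Nat.lt_succ_of_le h.1⟩, ⟨r % L.B s, h.2⟩⟩
        simpa [f, Nat.mod_add_div'] using this
      · exact L.cf_not h _
    refine Subtype.ext (funext fun g => MvPolynomial.ext _ _ fun K => ?_)
    by_contra h0
    have hg : Γ.deg g = s := by
      by_contra hg
      exact h0 (by rw [(c.2 g).2 hg]; rfl)
    obtain ⟨r, h2, h3, -⟩ := L.exists_val hT hg (eq_sub_iff_add_eq.1 ((c.2 g).1 h0 : mz 3 K = _))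
    exact h0 (dvd_iff_coeff.1 (h1 g) K (h3 ▸ Nat.lt_succ_of_le h2.1))
  refine ⟨Module.Finite.of_injective f hf, (LinearMap.finrank_le_finrank_of_injective hf).trans ?_⟩
  simp [dim, Finset.sum_range]

/-- all pivots of the cell `(s + 1, T)` -/
def Pv (new : ℕ → ℕ → Finset ℕ) (s T : ℕ) : Finset ℕ :=
  (Finset.range (T + 1)).biUnion fun d => (new s (T - d)).image (· + d * L.B (s + 1))

end Lay

/-- A certificate for the tables. -/
structure Cert (Γ : Gens ι) (δ : Mat ι (Av (ZMod 9))) (τ : Tab) (S N : ℕ) (aa Nn : ℕ → ℕ) where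
  /-- the layout -/
  L : Lay Γ N
  /-- the cells which have been checked -/
  ok : ℕ → ℕ → Bool
  /-- the new pivots -/
  new : ℕ → ℕ → Finset ℕ
  /-- the filtration of the sources with unknown targets -/
  A : ℕ → ℕ → ℕ
  /-- the functionals -/
  lam : ℕ → ℕ → (ι → Av (ZMod 3)) →ₗ[ZMod 3] (ℕ → ZMod 3)
  /-- the filtration killed by a functional -/
  W : ℕ → ℕ → ℕ → ℕ
  /-- the new sources -/
  x : ℕ → ℕ → ℕ → ι → Av (ZMod 3)
  /-- the approximate cocycles -/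
  z : ℕ → ℕ → ℕ → ι → Av (ZMod 9)
  lam_ge : ∀ s T c i, τ.dim s T ≤ i → lam s T c i = 0
  lam_W : ∀ s T i, ∀ c ∈ Fil (ZMod 3) (W s T i), lam s T c i = 0
  src : ∀ s T, ∀ r ∈ new s T, r < Nn s * L.B (s + 1) ∧
    Cl Γ s T (x s T r) ∧ Low (L.cf _ (s + 1) T) r (D3 δ (x s T r))
  ok_le : ∀ s T, ok s T = true → T ≤ N
  cnt_zero : ∀ T, ok 0 T = true → L.dim 0 T ≤ (L.Pv new 0 T).card + τ.dim 0 T
  cnt_succ : ∀ s T, ok (s + 1) T = true →
    L.dim (s + 1) T ≤ (L.Pv new s T).card + (L.Pv new (s + 1) T).card + τ.dim (s + 1) T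
  hA : ∀ s T, ok s T = true → ∀ d < A s T, d ≤ T → ∀ r ∈ new s (T - d),
    r + d * L.B (s + 1) < Nn s * L.B (s + 1)
  lx : ∀ s T, ok s T = true → ∀ d ≤ T, ∀ r ∈ new s (T - d),
    Nn s * L.B (s + 1) ≤ r + d * L.B (s + 1) → lam s T ((X 0 : Av (ZMod 3)) ^ d • x s (T - d) r) = 0
  ld : ∀ s T, ok (s + 1) T = true → (∀ i < τ.dim (s + 1) T, W (s + 1) T i ≤ Nn s) ∧
    ∀ c, Cl Γ s T c → lam (s + 1) T (D3 δ c) = 0
  hz : ∀ s T, ok s T = true → ∀ i < τ.dim s T, Cl Γ s T (z s T i) ∧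
    D3 δ (rc (z s T i)) ∈ Fil (ZMod 3) (Nn s) ∧ lam s T (rc (z s T i)) = Pi.single i 1
  reg : ∀ s T, τ.reg s T = true → ok s T = true ∧ ok (s + 1) T = true ∧ s + 1 ≤ S
  reg_zero : τ.reg 0 0 = true
  lam_one : lam 0 0 (Pi.single Γ.g0 1) = Pi.single 0 1
  /-- exponents of `v_2` -/
  kap : ℕ → ℕ
  /-- exponents of `v_1` -/
  ex : ℕ → ℕ
  ms_zero : τ.ms 0 = 0
  mT_zero : τ.mT 0 = 1
  ms_pos : ∀ k, 0 < k → τ.ms k = 1 ∧ 3 ^ ex k ∣ kap k ∧ τ.mT k + 3 ^ ex k = 4 * kap k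
  mul_le : ∀ k s T i l : ℕ, 0 < k → τ.mul k s T i l < 3 → T + 4 * kap k ≤ N
  mul_zero : ∀ s T i l : ℕ, τ.reg s T = true → τ.reg s (T + 1) = true → τ.mul 0 s T i l < 3 →
    i < τ.dim s T → lam s (T + 1) ((X 0 : Av (ZMod 3)) • rc (z s T i)) l = (τ.mul 0 s T i l : ℕ)
  mul_pos : ∀ k s T i l : ℕ, 0 < k → τ.reg s T = true → τ.mul k s T i l < 3 → i < τ.dim s T →
    W (s + 1) (τ.mT k + T) l ≤ A s T ∧ 3 ^ ex k + W (s + 1) (τ.mT k + T) l ≤ Nn s ∧
      ∀ c', D3 δ ((X 1 : Av (ZMod 3)) ^ kap k • rc (z s T i)) -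
        (X 0 : Av (ZMod 3)) ^ 3 ^ ex k • c' ∈ Fil (ZMod 3) (3 ^ ex k + W (s + 1) (τ.mT k + T) l) →
          lam (s + 1) (τ.mT k + T) c' l = (τ.mul k s T i l : ℕ)
  bok : ∀ s T i l : ℕ, τ.reg s T = true → τ.bok s T i l < 3 → i < τ.dim s T →
    W (s + 1) T l ≤ aa s ∧ (W (s + 1) T l ≤ 3 * (A s T / 3) ∨ W (s + 1) T l + 1 ≤ A s T) ∧
      ∀ y, X0 3 δ (z s T i) - (3 : ℤ) • y ∈ Fil (ZMod 9) (W (s + 1) T l) →
        lam (s + 1) T (rc y) l = (τ.bok s T i l : ℕ)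
  lead : ∀ j : ℕ, j ≤ 3 → τ.reg 2 (3 ^ (j + 1)) = true ∧ ∃ g : ι,
    (∀ g', Γ.deg g' = 2 → Γ.wt g' = 2 * 3 ^ (j + 1) → g' = g) ∧
      ∀ c, lam 2 (3 ^ (j + 1)) c (τ.lead j) = constantCoeff (c g)

variable {δ δ' : Mat ι (Av (ZMod 9))} {τ : Tab} {S : ℕ} {aa Nn : ℕ → ℕ}

namespace Cert

variable (c : Cert Γ δ τ S N aa Nn) (hc : Close Γ δ' δ aa Nn)

include hc

omit hc in
/-- the submodule which contains the sources with unknown targets -/
def G (s T : ℕ) : Submodule (ZMod 3) (ι → Av (ZMod 3)) where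
  carrier := {x | c.ok s T = true → x ∈ Fil (ZMod 3) (c.A s T) ∧ c.lam s T x = 0 ∧
    (c.ok s (T + 1) = true → c.lam s (T + 1) ((X 0 : Av (ZMod 3)) • x) = 0)}
  add_mem' ha hb h := ⟨add_mem (ha h).1 (hb h).1, by rw [map_add, (ha h).2.1, (hb h).2.1, add_zero],
    fun h' => by rw [smul_add, map_add, (ha h).2.2 h', (hb h).2.2 h', add_zero]⟩
  zero_mem' _ := ⟨zero_mem _, map_zero _, fun _ => by rw [smul_zero, map_zero]⟩
  smul_mem' a x hx h := ⟨((Fil _ _).restrictScalars (ZMod 3)).smul_mem a (hx h).1,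
    by rw [map_smul, (hx h).2.1, smul_zero],
    fun h' => by rw [smul_comm, map_smul, (hx h).2.2 h', smul_zero]⟩

theorem exists_src (s T : ℕ) : ∃ x : ℕ → ι → Av (ZMod 3), ∀ r ∈ c.L.Pv c.new s T,
    Cl Γ s T (x r) ∧ Low (c.L.cf _ (s + 1) T) r (D3 δ' (x r)) ∧
      (Nn s * c.L.B (s + 1) ≤ r → x r ∈ c.G s T) := by
  refine Classical.skolem (p := fun r (x : ι → Av (ZMod 3)) => r ∈ c.L.Pv c.new s T →
    Cl Γ s T x ∧ Low (c.L.cf _ (s + 1) T) r (D3 δ' x) ∧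
      (Nn s * c.L.B (s + 1) ≤ r → x ∈ c.G s T)).1 fun r => ?_
  by_cases hr : r ∈ c.L.Pv c.new s T
  swap
  · exact ⟨0, fun h => absurd h hr⟩
  obtain ⟨d, hd, h⟩ := Finset.mem_biUnion.1 hr
  obtain ⟨r, h1, rfl⟩ := Finset.mem_image.1 h
  obtain ⟨T, rfl⟩ : ∃ T', T = T' + d := ⟨T - d, by have := Finset.mem_range.1 hd; omega⟩
  have h0 := h1
  rw [Nat.add_sub_cancel] at h0
  obtain ⟨h2, h3, h4⟩ := c.src _ _ r h0
  have h5 : ∀ q ≤ r, c.L.cf _ (s + 1) T q (D3 δ' (c.x s T r)) =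
      c.L.cf _ (s + 1) T q (D3 δ (c.x s T r)) := fun q hq => by
    rw [← sub_eq_zero, ← map_sub]
    exact c.L.cf_Fil (hc.three h3) (by omega)
  refine ⟨(X 0 : Av (ZMod 3)) ^ d • c.x s T r, fun _ => ⟨h3.smul 0 (by simp [wz]; ring),
    ⟨?_, fun q hq => ?_⟩, fun h6 hok => ⟨?_, ?_, fun hok' => ?_⟩⟩⟩
  · rw [D3_smul, c.L.cf_shift, h5 r le_rfl]
    exact h4.1
  · rw [D3_smul]
    rcases lt_or_ge q (d * c.L.B (s + 1)) with h6 | h6
    · exact c.L.cf_Fil (Fil_iff.2 ⟨_, rfl⟩) h6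
    · obtain ⟨q, rfl⟩ := Nat.exists_eq_add_of_le' h6
      rw [c.L.cf_shift, h5 q (by omega)]
      exact h4.2 q (by omega)
  · refine Fil_mono (not_lt.1 fun h7 => ?_) (Fil_iff.2 ⟨_, rfl⟩)
    exact (c.hA s _ hok d h7 (by omega) r h1).not_ge h6
  · simpa only [Nat.add_sub_cancel] using c.lx s _ hok d (by omega) r h1 h6
  · have h7 := c.lx s _ hok' (d + 1) (by omega) r (by rwa [add_assoc, Nat.add_sub_cancel])
      (by rw [add_mul]; omega)
    rwa [add_assoc, Nat.add_sub_cancel, pow_succ', mul_smul] at h7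

theorem lam_d {s T : ℕ} (h : c.ok (s + 1) T = true) {x : ι → Av (ZMod 3)} (hx : Cl Γ s T x) :
    c.lam (s + 1) T (D3 δ' x) = 0 := by
  rw [← sub_add_cancel (D3 δ' x) (D3 δ x), map_add, (c.ld s T h).2 x hx, add_zero]
  funext i
  rcases lt_or_ge i (τ.dim (s + 1) T) with hi | hi
  · exact c.lam_W _ _ _ _ (Fil_mono ((c.ld s T h).1 i hi) (hc.three hx))
  · exact c.lam_ge _ _ _ _ hi

theorem dz {s T i : ℕ} (h : c.ok s T = true) (hi : i < τ.dim s T) :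
    D3 δ' (rc (c.z s T i)) ∈ Fil (ZMod 3) (Nn s) := by
  have := add_mem (hc.three (c.hz s T h i hi).1.red) (c.hz s T h i hi).2.1
  rwa [sub_add_cancel] at this

variable (h1 : HomD 3 Γ δ') (h2 : SqZero 3 Γ δ' (2 * N))

include h1 h2

theorem cel_zero {T : ℕ} (h : c.ok 0 T = true) : Cel (XL (mapM r3 δ')) ⊥ (ClS Γ _ 0 T) ∅
    (c.L.Pv c.new 0 T) 0 (c.exists_src hc 0 T).choose (c.L.cf _ 0 T) (c.L.cf _ 1 T)
    (Nn 0 * c.L.B 1) (τ.dim 0 T) (c.lam 0 T) fun i => rc (c.z 0 T i) where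
  map _ h := by simp [(Submodule.mem_bot _).1 h]
  dd _ h := by simp [(Submodule.mem_bot _).1 h]
  ld _ h := by simp [(Submodule.mem_bot _).1 h]
  mem₀ := by simp
  low₀ := by simp
  mem r hr := ((c.exists_src hc 0 T).choose_spec r hr).1
  low r hr := ((c.exists_src hc 0 T).choose_spec r hr).2.1
  lx r hr hM := (((c.exists_src hc 0 T).choose_spec r hr).2.2 hM h).2.1
  memz i hi := (c.hz _ _ h i hi).1.red
  dz _ hi _ hq := c.L.cf_Fil (c.dz hc h hi) hq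
  lz i hi := (c.hz _ _ h i hi).2.2
  fin := (c.L.finrank_le (c.ok_le _ _ h)).1
  card := (c.L.finrank_le (c.ok_le _ _ h)).2.trans (by simpa using c.cnt_zero T h)

theorem cel_succ {s T : ℕ} (h : c.ok (s + 1) T = true) : Cel (XL (mapM r3 δ')) (ClS Γ _ s T)
    (ClS Γ _ (s + 1) T) (c.L.Pv c.new s T) (c.L.Pv c.new (s + 1) T) (c.exists_src hc s T).choose
    (c.exists_src hc (s + 1) T).choose (c.L.cf _ (s + 1) T) (c.L.cf _ (s + 2) T)
    (Nn (s + 1) * c.L.B (s + 2)) (τ.dim (s + 1) T) (c.lam (s + 1) T)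
    fun i => rc (c.z (s + 1) T i) where
  map _ hx := Cl.D3 h1 hx
  dd _ hx := D3_D3 h2 (c.ok_le _ _ h) hx
  ld _ hx := c.lam_d hc h hx
  mem₀ r hr := ((c.exists_src hc s T).choose_spec r hr).1
  low₀ r hr := ((c.exists_src hc s T).choose_spec r hr).2.1
  mem r hr := ((c.exists_src hc _ T).choose_spec r hr).1
  low r hr := ((c.exists_src hc _ T).choose_spec r hr).2.1
  lx r hr hM := (((c.exists_src hc _ T).choose_spec r hr).2.2 hM h).2.1
  memz i hi := (c.hz _ _ h i hi).1.red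
  dz _ hi _ hq := c.L.cf_Fil (c.dz hc h hi) hq
  lz i hi := (c.hz _ _ h i hi).2.2
  fin := (c.L.finrank_le (c.ok_le _ _ h)).1
  card := (c.L.finrank_le (c.ok_le _ _ h)).2.trans (c.cnt_succ s T h)

theorem exists_cocycle {s T i : ℕ} (h : τ.reg s T = true) (hi : i < τ.dim s T) :
    ∃ u : ι → Av (ZMod 9), Cl Γ s T u ∧ u ∈ Fil (ZMod 9) (c.A s T) ∧
      rc u ∈ c.G s T ∧ D3 δ' (rc (c.z s T i) + rc u) = 0 ∧
      c.lam s T (rc (c.z s T i) + rc u) = Pi.single i 1 := by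
  obtain ⟨h3, h4, -⟩ := c.reg s T h
  obtain ⟨u, a1, a2, a3⟩ := (c.cel_succ hc h1 h2 h4).corr (c.hz _ _ h3 i hi).1.red
    (fun q hq => c.L.cf_Fil (c.dz hc h3 hi) hq) (c.G s T)
    fun r hr hM => ((c.exists_src hc s T).choose_spec r hr).2.2 hM
  obtain ⟨u, rfl, b1, b2⟩ := exists_lift' a1 (a2 h3).1
  exact ⟨u, b1, b2, a2, a3, by rw [map_add, (a2 h3).2.1, add_zero, (c.hz _ _ h3 i hi).2.2]⟩

/-- **A certificate for `δ` gives the tables for the exact lift `δ'`.** -/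
def creal : CReal Γ δ' τ S N where
  co s T := (c.lam s T).toAddMonoidHom
  co_ge := c.lam_ge
  co_d s T h _ hx := c.lam_d hc (c.reg _ _ h).1 hx
  ker_zero T h x a1 a2 a3 := by
    obtain ⟨a, ha⟩ := (c.cel_zero hc h1 h2 (c.reg _ _ h).1).ker a1 a2 a3
    simpa using ha
  ker_succ s T h x a1 a2 a3 := by
    have h3 := c.cel_succ hc h1 h2 (c.reg _ _ h).1
    obtain ⟨a, ha⟩ := h3.ker a1 a2 a3
    exact ⟨_, (ClS Γ _ s T).sum_mem fun r hr => Submodule.smul_mem _ _ (h3.mem₀ r hr), ha.symm⟩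
  surj s T i h hi := by
    obtain ⟨u, a1, -, -, a2, a3⟩ := c.exists_cocycle hc h1 h2 h hi
    exact ⟨_, (ClS Γ _ s T).add_mem (c.hz _ _ (c.reg _ _ h).1 i hi).1.red a1.red, a2, a3⟩
  reg_le s T h := ⟨(c.reg _ _ h).2.2, c.ok_le _ _ (c.reg _ _ h).1⟩
  reg_zero := c.reg_zero
  co_one := c.lam_one
  kap := c.kap
  ex := c.ex
  ms_zero := c.ms_zero
  mT_zero := c.mT_zero
  ms_pos := c.ms_pos
  mul_le := c.mul_le
  mul_zero s T i l h h' h3 hi := by
    obtain ⟨u, a1, -, a4, a2, a3⟩ := c.exists_cocycle hc h1 h2 h hi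
    refine ⟨_, (ClS Γ _ s T).add_mem (c.hz _ _ (c.reg _ _ h).1 i hi).1.red a1.red, a2, a3, ?_⟩
    rw [smul_add, LinearMap.toAddMonoidHom_coe, map_add, (a4 (c.reg _ _ h).1).2.2 (c.reg _ _ h').1,
      add_zero, c.mul_zero s T i l h h' h3 hi]
  mul_pos k s T i l hk h _ h3 hi := by
    obtain ⟨u, a1, -, a4, a2, a3⟩ := c.exists_cocycle hc h1 h2 h hi
    obtain ⟨b1, b2, b3⟩ := c.mul_pos k s T i l hk h h3 hi
    have b4 := (c.hz _ _ (c.reg _ _ h).1 i hi).1.red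
    refine ⟨_, (ClS Γ _ s T).add_mem b4 a1.red, a2, a3, fun y hy => b3 y ?_⟩
    have e1 := hc.three (b4.smul (T' := T + 4 * c.kap k) (e := c.kap k) 1 (by simp [wz]; ring))
    have e2 := D3_v2 δ' (c.ms_pos k hk).2.1 (a4 (c.reg _ _ h).1).1
    have e3 := (Fil _ _).smul_mem ((X 1 : Av (ZMod 3)) ^ c.kap k) (c.dz hc (c.reg _ _ h).1 hi)
    rw [D3_eq, map_add, ← D3_eq, ← D3_eq] at a2
    rw [smul_add, D3_eq, map_add, ← D3_eq, ← D3_eq] at hy
    rw [eq_neg_of_add_eq_zero_left a2] at e3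
    have e4 := sub_mem (sub_mem (Fil_mono b2 e3) (Fil_mono (by omega) e2)) (Fil_mono b2 e1)
    convert e4 using 1
    rw [← hy, smul_neg]
    abel
  bok s T i l h _ h3 hi := by
    obtain ⟨u, a1, a5, -, a2, a3⟩ := c.exists_cocycle hc h1 h2 h hi
    obtain ⟨b1, b2, b3⟩ := c.bok s T i l h h3 hi
    have b4 := (c.hz _ _ (c.reg _ _ h).1 i hi).1
    refine ⟨c.z s T i + u, (ClS Γ _ s T).add_mem b4 a1, by rwa [rc_add], by rwa [rc_add],
      fun y hy => b3 y ?_⟩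
    have e1 := Fil_mono b1 (hc.nine b4)
    have e2 : X0 3 δ' u ∈ Fil (ZMod 9) (c.W (s + 1) T l) :=
      b2.elim (fun b2 => Fil_mono b2 (X0_Fil δ' (Fil_mono (Nat.mul_div_le _ 3) a5)))
        fun b2 => X0_Fil' δ' (Fil_mono b2 a5)
    rw [← X0H_apply, map_add, X0H_apply, X0H_apply] at hy
    convert neg_mem (add_mem e1 e2) using 1
    rw [← hy]
    abel
  lead := c.lead

end Cert

end Vale.Agent.P236T
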