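import Vale.Agent.P236T.Snd2
import Vale.Agent.P236T.LayD

/-!
# P236, block TABC: the layout
-/

noncomputable section

namespace Vale.Agent.P236T

open Vale.Agent.P236A Vale.Agent.P236C MvPolynomial

/-- the stride -/
def B0 (s : ℕ) : ℕ := Nat.succ (f8 BB s)

/-- the length -/
def len0 (s e : ℕ) : ℕ := f8 (LNs.getD s 0) e

/-- the slot `g + 64 k_3 + 512 k_4` -/
def sl0 (s e q : ℕ) : ℕ := f16 (SLs.getD (4 * s + e % 4) 0) q

/-- the position of a slot -/
def ix0 (s h : ℕ) : ℕ := f8 (IXs.getD s 0) h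

/-- the degree of a slot -/
def cr0 (s h : ℕ) : ℕ := gw s (h % 64) + 13 * (h / 64 % 8) + 40 * (h / 512)

theorem lay_chkA : (allLt 25 fun s => allLt 95 fun e => Nat.ble (len0 s e) (B0 s) &&
    ((Nat.blt 90 e || Nat.ble (len0 s e) (len0 s (e + 4))) && allLt (len0 s e) fun q =>
      frc (sl0 s e q) fun h => frc (cr0 s h) fun c =>
        Nat.ble c e && (Nat.beq ((e - c) % 4) 0 && Nat.beq (ix0 s h) q))) = true := by
  decide +kernel

theorem lay_chkB : (allLt 25 fun s => allLt 64 fun g => allLt 8 fun a => allLt 3 fun b =>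
    frc (gw s g + 13 * a + 40 * b) fun c => frc (g + 64 * a + 512 * b) fun h => Nat.blt 94 c ||
      (Nat.blt (ix0 s h) (len0 s c) && Nat.beq (sl0 s c (ix0 s h)) h)) = true := by
  decide +kernel

theorem len0_lt {s e q : ℕ} (h : q < len0 s e) : s < 25 := by
  by_contra h1
  rw [len0, List.getD_eq_default _ _ (show LNs.length ≤ s from not_lt.1 h1)] at h
  simp [f8] at h

theorem layA {s e : ℕ} (hs : s < 25) (he : e ≤ 94) : len0 s e ≤ B0 s ∧
    (e + 4 ≤ 94 → len0 s e ≤ len0 s (e + 4)) ∧ ∀ q < len0 s e, cr0 s (sl0 s e q) ≤ e ∧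
      (e - cr0 s (sl0 s e q)) % 4 = 0 ∧ ix0 s (sl0 s e q) = q := by
  have h := allLt_spec (allLt_spec lay_chkA s hs) e (by omega)
  simp only [Bool.and_eq_true, Bool.or_eq_true, Nat.ble_eq, Nat.blt_eq] at h
  refine ⟨h.1, fun h1 => h.2.1.resolve_left (by omega), fun q hq => ?_⟩
  simpa only [frc_eq, Bool.and_eq_true, Nat.ble_eq, Nat.beq_eq] using allLt_spec h.2.2 q hq

theorem len0_mono {s c : ℕ} (hs : s < 25) (k : ℕ) (h : c + 4 * k ≤ 94) :
    len0 s c ≤ len0 s (c + 4 * k) := by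
  induction k with
  | zero => rfl
  | succ k ih => exact (ih (by omega)).trans ((layA hs (by omega)).2.1 h)

theorem mon4_apply (a b c d : ℕ) : mon4 a b c d 0 = a ∧ mon4 a b c d 1 = b ∧ mon4 a b c d 2 = c ∧
    mon4 a b c d 3 = d := by simp [mon4]

/-- the layout -/
def lay0 : Lay (Gam 23) 94 where
  B := B0
  len := len0
  gen s e q := (Fin.ofNat 25 s, Fin.ofNat 64 (sl0 s e q))
  mon s e q := mon4 0 ((e - cr0 s (sl0 s e q)) / 4) (sl0 s e q / 64 % 8) (sl0 s e q / 512)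
  B_pos _ := Nat.succ_pos _
  len_le s e he := by
    rcases Nat.eq_zero_or_pos (len0 s e) with h | h
    exacts [h.trans_le (Nat.zero_le _), (layA (len0_lt h) he).1]
  mon_zero _ _ _ := (mon4_apply _ _ _ _).1
  wt s e q he hq := by
    have hs := len0_lt hq
    obtain ⟨h1, h2, -⟩ := (layA hs he).2.2 q hq
    have h3 : ((Fin.ofNat 25 s : Fin 25) : ℕ) = s := Nat.mod_eq_of_lt hs
    refine ⟨h3, ?_⟩
    rw [mz_mon4, Gam_wt, h3, Fin.val_ofNat]
    rw [cr0] at h1 h2 ⊢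
    omega
  inj s e q q' he hq hq' h1 h2 := by
    have h3 : sl0 s e q % 64 = sl0 s e q' % 64 := congrArg (fun g : Io 23 => (g.2 : ℕ)) h1
    have h4 := congrArg (· 2) h2
    have h5 := congrArg (· 3) h2
    simp only [mon4_apply] at h4 h5
    rw [← ((layA (len0_lt hq) he).2.2 q hq).2.2, show sl0 s e q = sl0 s e q' by omega,
      ((layA (len0_lt hq) he).2.2 q' hq').2.2]
  surj s e g K he hg h0 hK := by
    obtain ⟨⟨s, hs⟩, g, hg'⟩ := g
    obtain rfl : s = _ := hg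
    have h1 := mz_mon4 (K 0) (K 1) (K 2) (K 3)
    rw [Gam_wt] at hK
    rw [← eq_mon4 (by omega), h0] at h1
    have h2 : e = gw s g + 13 * K 2 + 40 * K 3 + 4 * K 1 := by
      simp only at hK
      omega
    have h3 := allLt_spec (allLt_spec (allLt_spec (allLt_spec lay_chkB s hs) g hg') (K 2)
      (by omega)) (K 3) (by omega)
    simp only [frc_eq, Bool.and_eq_true, Bool.or_eq_true, Nat.blt_eq, Nat.beq_eq] at h3
    obtain ⟨h4, h5⟩ := h3.resolve_left (by omega)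
    have h6 : sl0 s e (ix0 s (g + 64 * K 2 + 512 * K 3)) = g + 64 * K 2 + 512 * K 3 := by
      refine Eq.trans ?_ h5
      rw [sl0, sl0, h2, Nat.add_mul_mod_self_left]
    refine ⟨_, h4.trans_le (h2 ▸ len0_mono hs _ (by omega)), ?_, ?_⟩
    · rw [h6]
      exact Prod.ext (Fin.ext (Nat.mod_eq_of_lt hs)) (Fin.ext (by rw [Fin.val_ofNat]; simp; omega))
    · rw [h6, cr0, show (g + 64 * K 2 + 512 * K 3) % 64 = g by omega,
        show (g + 64 * K 2 + 512 * K 3) / 64 % 8 = K 2 by omega,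
        show (g + 64 * K 2 + 512 * K 3) / 512 = K 3 by omega,
        show (e - (gw s g + 13 * K 2 + 40 * K 3)) / 4 = K 1 by omega, ← h0, ← eq_mon4 (by omega)]
  even g := ⟨_, rfl⟩

theorem lay0_v2 : lay0.V2 := fun s e q he hq => by
  have h1 := layA (len0_lt hq) (show e ≤ 94 by omega)
  have h2 : sl0 s (e + 4) q = sl0 s e q := by rw [sl0, sl0, Nat.add_mod_right]
  refine ⟨lt_of_lt_of_le hq (h1.2.1 he), congrArg (fun h => (Fin.ofNat 25 s, Fin.ofNat 64 h)) h2, ?_⟩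
  have h3 := (h1.2.2 q hq).1
  show mon4 0 ((e + 4 - cr0 s (sl0 s (e + 4) q)) / 4) (sl0 s (e + 4) q / 64 % 8)
    (sl0 s (e + 4) q / 512) = _ + mon4 0 _ _ _
  rw [h2, show (e + 4 - cr0 s (sl0 s e q)) / 4 = 1 + (e - cr0 s (sl0 s e q)) / 4 by omega, mon4, mon4,
    Finsupp.single_add]
  abel

end Vale.Agent.P236T
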