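import Vale.Agent.P236A.Basic
import Vale.Agent.P236K.Spec

/-!
# P236, block TABC: the tables on the small complex

`CReal Γ δ τ S N`: the tables `τ` describe the cohomology of the small complex `ι → 𝔽_3[v]` with the
differential `X0 δ`, the multiplication by `v_1`, the operations `z ↦ X (v_2 ^ κ z) / v_1 ^ j` and
the Bockstein operation.
-/

noncomputable section

namespace Vale.Agent.P236T

open Vale.Agent.P236A Vale.Agent.P236K MvPolynomial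

/-- the reduction `ℤ/9 → ℤ/3` -/
def r3 : ZMod 9 →+* ZMod 3 := ZMod.castHom (by norm_num) (ZMod 3)

variable {ι : Type} [Fintype ι] [DecidableEq ι]

/-- the reduction of cochains -/
def rc (c : ι → Av (ZMod 9)) : ι → Av (ZMod 3) := fun g => map r3 (c g)

/-- the differential modulo `3` -/
def D3 (δ : Mat ι (Av (ZMod 9))) (c : ι → Av (ZMod 3)) : ι → Av (ZMod 3) := X0 3 (mapM r3 δ) c

/-- homogeneous cochains in the cell `(s, T)` -/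
def Cl (Γ : Gens ι) {k : Type} [CommRing k] (s T : ℕ) (c : ι → Av k) : Prop :=
  Hom 3 Γ s (2 * (T : ℤ)) c

/-- The tables describe the cohomology of the small complex. -/
structure CReal (Γ : Gens ι) (δ : Mat ι (Av (ZMod 9))) (τ : Tab) (S N : ℕ) where
  /-- coordinates -/
  co : ℕ → ℕ → (ι → Av (ZMod 3)) →+ (ℕ → ZMod 3)
  co_ge : ∀ (s T : ℕ) (c : ι → Av (ZMod 3)) (i : ℕ), τ.dim s T ≤ i → co s T c i = 0
  co_d : ∀ s T : ℕ, τ.reg (s + 1) T = true → ∀ c, Cl Γ s T c → co (s + 1) T (D3 δ c) = 0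
  ker_zero : ∀ T : ℕ, τ.reg 0 T = true → ∀ c, Cl Γ 0 T c → D3 δ c = 0 → co 0 T c = 0 → c = 0
  ker_succ : ∀ s T : ℕ, τ.reg (s + 1) T = true → ∀ c, Cl Γ (s + 1) T c → D3 δ c = 0 →
    co (s + 1) T c = 0 → ∃ c', Cl Γ s T c' ∧ D3 δ c' = c
  surj : ∀ s T i : ℕ, τ.reg s T = true → i < τ.dim s T →
    ∃ c, Cl Γ s T c ∧ D3 δ c = 0 ∧ co s T c = Pi.single i 1
  reg_le : ∀ s T : ℕ, τ.reg s T = true → s + 1 ≤ S ∧ T ≤ N
  reg_zero : τ.reg 0 0 = true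
  co_one : co 0 0 (Pi.single Γ.g0 1) = Pi.single 0 1
  /-- the multiplier number `k > 0` is `d (v_2 ^ kap k) / v_1 ^ 3 ^ ex k` -/
  kap : ℕ → ℕ
  /-- the multiplier number `k > 0` is `d (v_2 ^ kap k) / v_1 ^ 3 ^ ex k` -/
  ex : ℕ → ℕ
  ms_zero : τ.ms 0 = 0
  mT_zero : τ.mT 0 = 1
  ms_pos : ∀ k, 0 < k → τ.ms k = 1 ∧ 3 ^ ex k ∣ kap k ∧ τ.mT k + 3 ^ ex k = 4 * kap k
  mul_le : ∀ k s T i l : ℕ, 0 < k → τ.mul k s T i l < 3 → T + 4 * kap k ≤ N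
  mul_zero : ∀ s T i l : ℕ, τ.reg s T = true → τ.reg s (T + 1) = true → τ.mul 0 s T i l < 3 →
    i < τ.dim s T → ∃ c, Cl Γ s T c ∧ D3 δ c = 0 ∧ co s T c = Pi.single i 1 ∧
      co s (T + 1) ((X 0 : Av (ZMod 3)) • c) l = (τ.mul 0 s T i l : ℕ)
  mul_pos : ∀ k s T i l : ℕ, 0 < k → τ.reg s T = true → τ.reg (s + 1) (τ.mT k + T) = true →
    τ.mul k s T i l < 3 → i < τ.dim s T → ∃ c, Cl Γ s T c ∧ D3 δ c = 0 ∧
      co s T c = Pi.single i 1 ∧ ∀ c', D3 δ ((X 1 : Av (ZMod 3)) ^ kap k • c) =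
        (X 0 : Av (ZMod 3)) ^ 3 ^ ex k • c' →
          co (s + 1) (τ.mT k + T) c' l = (τ.mul k s T i l : ℕ)
  bok : ∀ s T i l : ℕ, τ.reg s T = true → τ.reg (s + 1) T = true → τ.bok s T i l < 3 →
    i < τ.dim s T → ∃ c : ι → Av (ZMod 9), Cl Γ s T c ∧ D3 δ (rc c) = 0 ∧
      co s T (rc c) = Pi.single i 1 ∧ ∀ y : ι → Av (ZMod 9), X0 3 δ c = (3 : ℤ) • y →
        co (s + 1) T (rc y) l = (τ.bok s T i l : ℕ)
  lead : ∀ j : ℕ, j ≤ 3 → τ.reg 2 (3 ^ (j + 1)) = true ∧ ∃ g : ι,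
    (∀ g', Γ.deg g' = 2 → Γ.wt g' = 2 * 3 ^ (j + 1) → g' = g) ∧
      ∀ c, co 2 (3 ^ (j + 1)) c (τ.lead j) = constantCoeff (c g)

/-- **Bridge** (block BRG): statement. -/
def BrgStmt : Prop :=
  ∀ (ι : Type) [Fintype ι] [DecidableEq ι] (Γ : Gens ι) (δ : Mat ι (Av (ZMod 9))) (S N : ℕ)
    (τ : Tab), HomD 3 Γ δ → SqZero 3 Γ δ (2 * N) → ExactP 3 Γ (bar 3 r3 δ) S (2 * N) →
    N < 121 → CReal Γ δ τ S N → Nonempty (Real τ)

end Vale.Agent.P236T
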