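import Vale.Agent.P236T.Vec
import Vale.Agent.P236C.Exact

/-!
# P236, block TABC: the checker
-/

set_option linter.unusedSectionVars false

noncomputable section

namespace Vale.Agent.P236T

open Vale.Agent.P236A Vale.Agent.P236C Vale.Agent.P236K MvPolynomial Finset

/-- The data of a cell. -/
structure Cd where
  /-- the cell is checked -/
  ok : Bool
  /-- the filtration of the sources with unknown targets -/
  A : ℕ
  /-- a bound for the loop over old sources -/
  D : ℕ
  /-- the number of layers of the cocycles -/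
  Z : ℕ
  /-- pivots and sources -/
  xs : List (ℕ × ℕ)
  /-- layers, functional, cocycle -/
  vs : List (ℕ × ℕ × ℕ)

/-- The data of a certificate. -/
structure Pr where
  /-- the top degree -/
  S : ℕ
  /-- the number of multipliers -/
  K : ℕ
  /-- precision modulo `9` -/
  aa : ℕ → ℕ
  /-- precision modulo `3` -/
  Nn : ℕ → ℕ
  /-- exponents of `v_2` -/
  kap : ℕ → ℕ
  /-- exponents of `v_1` -/
  ex : ℕ → ℕ
  /-- the tables -/
  τ : Tab
  /-- the cells -/
  cd : ℕ → ℕ → Cd
  /-- the numbers of pivots -/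
  rho : ℕ → ℕ → ℕ

/-- new bits -/
def insM (l : List (ℕ × ℕ)) (m : ℕ) : ℕ :=
  List.rec m (fun t _ ih => Nat.lor ih (Nat.shiftLeft 1 t.1)) l

/-- the new bits have not been set -/
def insB (l : List (ℕ × ℕ)) (m : ℕ) : Bool :=
  List.rec true (fun t l ih => Bool.rec false ih
    (Nat.beq (Nat.land (Nat.shiftRight (insM l m) t.1) 1) 0)) l

/-- the set is covered by the mask -/
def Cov (m c : ℕ) (P : Finset ℕ) : Prop := (∀ a ∈ P, m.testBit a = true) ∧ c ≤ P.card

theorem Cov.ins {m c : ℕ} {P : Finset ℕ} (h : Cov m c P) {l : List (ℕ × ℕ)} (hl : insB l m = true) :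
    Cov (insM l m) (c + l.length) ((l.map Prod.fst).toFinset ∪ P) := by
  induction l with
  | nil => simpa [insM] using h
  | cons t l ih =>
    obtain ⟨h1, h2⟩ := rec_false hl
    obtain ⟨h3, h4⟩ := ih h2
    have h5 : (insM l m).testBit t.1 = false := by
      rw [← beq_bit, Nat.eq_of_beq_eq_true h1]
      rfl
    rw [List.map_cons, List.toFinset_cons, insert_union]
    refine ⟨fun a ha => ?_, ?_⟩
    · show (insM l m ||| 1 <<< t.1).testBit a = true
      rw [Nat.testBit_or, Nat.one_shiftLeft]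
      rcases mem_insert.1 ha with rfl | ha
      · simp
      · simp [h3 a ha]
    · rw [card_insert_of_notMem fun h => by simp [h3 _ h] at h5, List.length_cons]
      omega

theorem Cov.shl {m c : ℕ} {P : Finset ℕ} (h : Cov m c P) (B : ℕ) :
    Cov (m <<< B) c (P.image (· + B)) :=
  ⟨fun a ha => by
    obtain ⟨a, h1, rfl⟩ := mem_image.1 ha
    simp [Nat.testBit_shiftLeft, h.1 a h1], by
    rw [card_image_of_injective _ (add_left_injective B)]
    exact h.2⟩

/-- the pivots are distinct -/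
def piv (xs : ℕ → List (ℕ × ℕ)) (rho : ℕ → ℕ) (B n : ℕ) : ℕ → ℕ → ℕ → Bool :=
  Nat.rec (motive := fun _ => ℕ → ℕ → ℕ → Bool) (fun _ _ _ => true) (fun _ ih T m c =>
    Bool.rec false (frc (Nat.add c (xs T).length) fun c => Bool.rec false
      (frc (Nat.shiftLeft (insM (xs T) m) B) fun m => ih (Nat.succ T) m c) (Nat.ble (rho T) c))
      (insB (xs T) m)) n

variable {ι : Type} [Fintype ι] [DecidableEq ι] {Γ : Gens ι} {N : ℕ} (L : Lay Γ N)

theorem Lay.Pv_zero (new : ℕ → ℕ → Finset ℕ) (s : ℕ) : L.Pv new s 0 = new s 0 ∪ ∅ := by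
  simp [Lay.Pv]

theorem Lay.Pv_succ (new : ℕ → ℕ → Finset ℕ) (s T : ℕ) :
    L.Pv new s (T + 1) = new s (T + 1) ∪ (L.Pv new s T).image (· + L.B (s + 1)) := by
  ext a
  simp only [Lay.Pv, mem_biUnion, mem_range, mem_image, mem_union]
  constructor
  · rintro ⟨d, h1, r, h2, rfl⟩
    cases d with
    | zero => exact Or.inl (by simpa using h2)
    | succ d => exact Or.inr ⟨_, ⟨d, by omega, r, by simpa using h2, rfl⟩, by ring⟩
  · rintro (h | ⟨_, ⟨d, h1, r, h2, rfl⟩, rfl⟩)
    exacts [⟨0, by omega, a, h, by simp⟩, ⟨d + 1, by omega, r, by simpa using h2, by ring⟩]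

theorem piv_spec {xs : ℕ → ℕ → List (ℕ × ℕ)} {rho : ℕ → ℕ} {s n : ℕ}
    (h : piv (xs s) rho (L.B (s + 1)) n 0 0 0 = true) {T : ℕ} (hT : T < n) :
    rho T ≤ (L.Pv (fun s T => ((xs s T).map Prod.fst).toFinset) s T).card := by
  have key : ∀ (n T m c : ℕ) (P : Finset ℕ), piv (xs s) rho (L.B (s + 1)) n T m c = true →
      Cov m c P → L.Pv (fun s T => ((xs s T).map Prod.fst).toFinset) s T =
        ((xs s T).map Prod.fst).toFinset ∪ P → ∀ d < n,
        rho (T + d) ≤ (L.Pv (fun s T => ((xs s T).map Prod.fst).toFinset) s (T + d)).card := by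
    intro n
    induction n with
    | zero => omega
    | succ n ih =>
      intro T m c P h1 h2 h3 d hd
      obtain ⟨h4, h5⟩ := rec_false h1
      rw [frc_eq] at h5
      obtain ⟨h5, h6⟩ := rec_false h5
      rw [frc_eq] at h6
      have h7 := h2.ins h4
      rw [← h3] at h7
      cases d with
      | zero => exact (Nat.le_of_ble_eq_true h5).trans h7.2
      | succ d =>
        rw [add_comm d, ← add_assoc]
        exact ih _ _ _ _ h6 (h7.shl _) (L.Pv_succ _ _ _) d (by omega)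
  simpa using key n 0 0 0 ∅ h ⟨by simp, by simp⟩ (L.Pv_zero _ _) T hT

/-- the digits are supported on valid positions -/
def sup (s T W x : ℕ) : Bool :=
  decide (W ≤ T + 1) && (Nat.beq (x >>> (12 * (W * L.B s))) 0 && allLt W fun l =>
    Nat.beq (fld (12 * L.B s) x l >>> (12 * L.len s (T - l))) 0)

theorem sup_spec {s T W x : ℕ} (h : sup L s T W x = true) : L.Supp s T x := fun r hr => by
  simp only [sup, Bool.and_eq_true, decide_eq_true_eq, Nat.beq_eq] at h
  obtain ⟨h1, h2, h3⟩ := h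
  rw [dg, show fld 12 x r = 0 from ?_]
  rcases lt_or_ge r (W * L.B s) with h4 | h4
  · rw [← Nat.div_lt_iff_lt_mul (L.B_pos s)] at h4
    rw [← Nat.div_add_mod r (L.B s), ← fld_fld (Nat.mod_lt _ (L.B_pos s))]
    refine fld_of_shr (Nat.eq_of_beq_eq_true (allLt_spec h3 _ h4)) (not_lt.1 fun h5 => hr ⟨?_, h5⟩)
    exact Nat.le_of_lt_succ (h4.trans_le h1)
  · exact fld_of_shr h2 h4

variable (P : Pr)

/-- the data of a cell -/
def cel (N s T : ℕ) : Cd := cond (Nat.ble s P.S && Nat.ble T N) (P.cd s T) ⟨false, 0, 0, 0, [], []⟩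

/-- the layers of a functional -/
def gW (N s T i : ℕ) : ℕ := ((cel P N s T).vs.getD i (0, 0, 0)).1

/-- a functional -/
def gl (N s T i : ℕ) : ℕ := ((cel P N s T).vs.getD i (0, 0, 0)).2.1

/-- a cocycle -/
def gz (N s T i : ℕ) : ℕ := ((cel P N s T).vs.getD i (0, 0, 0)).2.2

/-- the value of a functional -/
def vl (b s T i y : ℕ) : ℕ := dot (msks b (gW P N s T i * L.B s) (gl P N s T i)) y

/-- the rows modulo `3` -/
def M3 (R : ℕ → ℕ → ℕ) (s T l p : ℕ) : ℕ :=
  Nat.shiftLeft (R (Nat.sub T l) p) (Nat.mul 12 (Nat.mul l (L.B (s + 1))))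

/-- the rows modulo `9` -/
def M9 (R : ℕ → ℕ → ℕ) (s T l p : ℕ) : ℕ :=
  Nat.shiftLeft (R (T - 3 * (l / 3)) (l % 3 * L.B s + p)) (12 * (3 * (l / 3) * L.B (s + 1)))

/-- the test of a source -/
def srcT (s T r y : ℕ) : Bool :=
  decide (r < P.Nn s * L.B (s + 1)) && (decide (L.Val (s + 1) T r) && (div3 y r &&
    !Nat.beq (fld 12 y r % 3) 0))

/-- the test of a product -/
def muT (k s T i y : ℕ) : Bool :=
  frc (y >>> (12 * (3 ^ P.ex k * L.B (s + 1)))) fun y =>
    allLt (P.τ.dim (s + 1) (P.τ.mT k + T)) fun l => Nat.ble 3 (P.τ.mul k s T i l) ||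
      (decide (gW P N (s + 1) (P.τ.mT k + T) l ≤ (cel P N s T).A) &&
        (decide (3 ^ P.ex k + gW P N (s + 1) (P.τ.mT k + T) l ≤ P.Nn s) &&
          Nat.beq (vl L P 12 (s + 1) (P.τ.mT k + T) l y % 3) (P.τ.mul k s T i l)))

/-- the test of a Bockstein -/
def bokT (s T i y : ℕ) : Bool :=
  allLt (P.τ.dim (s + 1) T) fun l => Nat.ble 3 (P.τ.bok s T i l) ||
    (decide (gW P N (s + 1) T l ≤ P.aa s) && (decide (gW P N (s + 1) T l ≤ 3 * ((cel P N s T).A / 3) ∨
      gW P N (s + 1) T l + 1 ≤ (cel P N s T).A) &&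
        Nat.beq (vl L P 12 (s + 1) T l y % 9) (3 * P.τ.bok s T i l)))

/-- the vectors whose differentials modulo `3` are computed -/
def ts3 (s T : ℕ) : List (ℕ × (ℕ → Bool)) :=
  (cel P N s T).xs.map (fun t => (t.2, srcT L P s T t.1)) ++
    ((List.range (P.τ.dim s T)).map (fun i => (gz P N s T i,
      fun y => div3 y (min (P.Nn s) (T + 1) * L.B (s + 1)))) ++
    (List.range P.K).flatMap fun k => cond (Nat.blt 0 k && (Nat.ble (4 * P.kap k) T &&
      (P.τ.reg s (T - 4 * P.kap k) && Nat.blt 0 (P.τ.dim (s + 1) (P.τ.mT k + (T - 4 * P.kap k))))))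
      ((List.range (P.τ.dim s (T - 4 * P.kap k))).map fun i =>
        (gz P N s (T - 4 * P.kap k) i, muT L P k s (T - 4 * P.kap k) i)) [])

/-- the checks modulo `3` -/
def chk3 (R : ℕ → ℕ → ℕ) (s T : ℕ) : Bool :=
  frc (min (P.Nn s) (T + 1)) fun n => runT (n * max (L.B s) (L.B (s + 1))) (n * L.B (s + 1)) n (L.B s)
    (fun l => L.len s (Nat.sub T l)) (M3 L R s T) (ts3 L P s T)

/-- the checks modulo `9` -/
def chk9 (R : ℕ → ℕ → ℕ) (s T : ℕ) : Bool :=
  !P.τ.reg s T || frc (min (P.aa s + 1) (T + 1)) fun n => runT (n * max (L.B s) (L.B (s + 1)))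
    (min (P.aa s) (T + 1) * L.B (s + 1)) n (L.B s) (fun l => L.len s (Nat.sub T l)) (M9 L R s T)
    ((List.range (P.τ.dim s T)).map fun i => (gz P N s T i, bokT L P s T i))

/-- the functionals kill the image -/
def chkL (R : ℕ → ℕ → ℕ) (s T : ℕ) : Bool :=
  !(cel P N (s + 1) T).ok || allLt (P.τ.dim (s + 1) T) fun i =>
    decide (gW P N (s + 1) T i ≤ P.Nn s) && allLt (min (gW P N (s + 1) T i) (T + 1)) fun l =>
      allLt (L.len s (T - l)) fun p => Nat.beq (Nat.mod (vl L P 4 (s + 1) T i (M3 L R s T l p)) 3) 0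

/-- the checks which use the differential -/
def chkR (R : ℕ → ℕ → ℕ) (s T : ℕ) : Bool := chk3 L P R s T && (chk9 L P R s T && chkL L P R s T)

/-- supports and duality -/
def chkV (s T : ℕ) : Bool :=
  allLt (P.τ.dim s T) fun i => sup L s T (gW P N s T i) (gl P N s T i) &&
    (sup L s T (cel P N s T).Z (gz P N s T i) && (decide (gW P N s T i ≤ (cel P N s T).D) &&
      allLt (P.τ.dim s T) fun l =>
        Nat.beq (vl L P 2 s T l (gz P N s T i) % 3) (cond (Nat.beq l i) 1 0)))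

/-- old sources and the count -/
def chkO (s T : ℕ) : Bool :=
  !(cel P N s T).ok || (decide (min (cel P N s T).A (T + 1) ≤ (cel P N s T).D) &&
    (Nat.ble (sumLt (T + 1) fun l => L.len s (T - l))
      (Nat.rec 0 (fun s _ => P.rho s T) s + P.rho s T + P.τ.dim s T) &&
    allLt (min (cel P N s T).D (T + 1)) fun d => (cel P N s (T - d)).xs.all fun t =>
      Nat.blt (t.1 + d * L.B (s + 1)) (P.Nn s * L.B (s + 1)) || (Nat.ble (cel P N s T).A d &&
        allLt (P.τ.dim s T) fun l => Nat.beq (vl L P 2 s T l (t.2 <<< (12 * (d * L.B s))) % 3) 0)))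

/-- registered cells and the multiplication by `v_1` -/
def chkM (s T : ℕ) : Bool :=
  !P.τ.reg s T || ((cel P N s T).ok && ((cel P N (s + 1) T).ok && (!P.τ.reg s (T + 1) ||
    allLt (P.τ.dim s T) fun i => allLt (P.τ.dim s (T + 1)) fun l => Nat.ble 3 (P.τ.mul 0 s T i l) ||
      Nat.beq (vl L P 2 s (T + 1) l (gz P N s T i <<< (12 * (1 * L.B s))) % 3) (P.τ.mul 0 s T i l))))

/-- the checks of a level which do not use the differential -/
def chkS (s : ℕ) : Bool :=
  decide (L.B s ≤ 88) && (decide (0 < P.Nn s) &&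
    (piv (fun T => (cel P N s T).xs) (P.rho s) (L.B (s + 1)) (N + 1) 0 0 0 &&
      allLt (N + 1) fun T => chkV L P s T && (chkO L P s T && chkM L P s T)))

end Vale.Agent.P236T
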