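import Mathlib

/-!
# P236, block TABC: linear algebra of filtered complexes
-/

namespace Vale.Agent.P236T

open Finset

variable {F E : Type} [Field F] [AddCommGroup E] [Module F E]

/-- `r` is the first coordinate of `y` which does not vanish -/
def Low (φ : ℕ → E →ₗ[F] F) (r : ℕ) (y : E) : Prop := φ r y ≠ 0 ∧ ∀ q < r, φ q y = 0

theorem Low.tri {φ : ℕ → E →ₗ[F] F} {P : Finset ℕ} {y : ℕ → E} (h : ∀ r ∈ P, Low φ r (y r))
    {a : ℕ → F} {M : ℕ} (hv : ∀ q < M, φ q (∑ r ∈ P, a r • y r) = 0) :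
    ∀ r ∈ P, r < M → a r = 0 := by
  intro r
  induction r using Nat.strong_induction_on with
  | _ r ih =>
    intro hr hM
    have h1 := hv r hM
    rw [map_sum, Finset.sum_eq_single_of_mem r hr, map_smul, smul_eq_mul] at h1
    · exact (mul_eq_zero.1 h1).resolve_right (h r hr).1
    · intro q hq hne
      rw [map_smul, smul_eq_mul]
      rcases lt_or_gt_of_ne hne with h2 | h2
      · rw [ih q h2 hq (h2.trans hM), zero_mul]
      · rw [(h q hq).2 r h2, mul_zero]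

/-- The data which determine the cohomology at one place. -/
structure Cel (D : E →ₗ[F] E) (W₀ W : Submodule F E) (P₀ P : Finset ℕ) (x₀ x : ℕ → E)
    (φ₀ φ : ℕ → E →ₗ[F] F) (M n : ℕ) (lam : E →ₗ[F] (ℕ → F)) (z : ℕ → E) : Prop where
  map : ∀ c ∈ W₀, D c ∈ W
  dd : ∀ c ∈ W₀, D (D c) = 0
  ld : ∀ c ∈ W₀, lam (D c) = 0
  mem₀ : ∀ r ∈ P₀, x₀ r ∈ W₀
  low₀ : ∀ r ∈ P₀, Low φ₀ r (D (x₀ r))
  mem : ∀ r ∈ P, x r ∈ W
  low : ∀ r ∈ P, Low φ r (D (x r))
  lx : ∀ r ∈ P, M ≤ r → lam (x r) = 0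
  memz : ∀ i < n, z i ∈ W
  dz : ∀ i < n, ∀ q < M, φ q (D (z i)) = 0
  lz : ∀ i < n, lam (z i) = Pi.single i 1
  fin : Module.Finite F W
  card : Module.finrank F W ≤ P₀.card + P.card + n

variable {D : E →ₗ[F] E} {W₀ W : Submodule F E} {P₀ P : Finset ℕ} {x₀ x : ℕ → E}
  {φ₀ φ : ℕ → E →ₗ[F] F} {M n : ℕ} {lam : E →ₗ[F] (ℕ → F)} {z : ℕ → E}

theorem Cel.step (h : Cel D W₀ W P₀ P x₀ x φ₀ φ M n lam z) {u : E} (hu : u ∈ W₀) {b c : ℕ → F}
    (h1 : D (D u + ∑ r ∈ P, b r • x r + ∑ i ∈ range n, c i • z i) = 0)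
    (h2 : lam (D u + ∑ r ∈ P, b r • x r + ∑ i ∈ range n, c i • z i) = 0) :
    (∀ r ∈ P, b r = 0) ∧ ∀ i < n, c i = 0 := by
  simp only [map_add, h.dd u hu, h.ld u hu, zero_add, map_sum, map_smul] at h1 h2
  have h3 : ∀ r ∈ P, r < M → b r = 0 := Low.tri h.low fun q hq => by
    rw [eq_neg_of_add_eq_zero_left h1, map_neg, map_sum, neg_eq_zero]
    exact Finset.sum_eq_zero fun i hi => by
      rw [map_smul, h.dz i (mem_range.1 hi) q hq, smul_zero]
  have h4 : ∑ r ∈ P, b r • lam (x r) = 0 := Finset.sum_eq_zero fun r hr => by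
    rcases lt_or_ge r M with h5 | h5
    · rw [h3 r hr h5, zero_smul]
    · rw [h.lx r hr h5, smul_zero]
  have h5 : ∀ i < n, c i = 0 := fun i hi => by
    have h6 := congrFun h2 i
    rw [h4, zero_add, Finset.sum_apply, Finset.sum_eq_single_of_mem i (mem_range.2 hi)] at h6
    · simpa [h.lz i hi] using h6
    · intro j hj hne
      simp [h.lz j (mem_range.1 hj), hne.symm]
  refine ⟨fun r hr => Low.tri h.low (M := r + 1) (fun q _ => ?_) r hr r.lt_succ_self, h5⟩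
  rw [Finset.sum_eq_zero (s := range n) fun i hi => by rw [h5 i (mem_range.1 hi), zero_smul],
    add_zero] at h1
  rw [h1, map_zero]

theorem Cel.span (h : Cel D W₀ W P₀ P x₀ x φ₀ φ M n lam z) {v : E} (hv : v ∈ W) :
    ∃ a b c : ℕ → F, v = D (∑ r ∈ P₀, a r • x₀ r) + ∑ r ∈ P, b r • x r +
      ∑ i ∈ range n, c i • z i := by
  classical
  have := h.fin
  let f : (P₀ ⊕ P) ⊕ range n → W := Sum.elim (Sum.elim (fun r => ⟨D (x₀ r), h.map _ (h.mem₀ _ r.2)⟩)
    fun r => ⟨x r, h.mem _ r.2⟩) fun i => ⟨z i, h.memz _ (mem_range.1 i.2)⟩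
  have key : ∀ g : (P₀ ⊕ P) ⊕ range n → F, ∃ a b c : ℕ → F,
      (∀ r, g (.inl (.inl r)) = a r) ∧ (∀ r, g (.inl (.inr r)) = b r) ∧ (∀ r, g (.inr r) = c r) ∧
      ((∑ i, g i • f i : W) : E) = D (∑ r ∈ P₀, a r • x₀ r) + ∑ r ∈ P, b r • x r +
        ∑ i ∈ range n, c i • z i := fun g => by
    refine ⟨fun r => if h : r ∈ P₀ then g (.inl (.inl ⟨r, h⟩)) else 0,
      fun r => if h : r ∈ P then g (.inl (.inr ⟨r, h⟩)) else 0,
      fun r => if h : r ∈ range n then g (.inr ⟨r, h⟩) else 0, fun r => by simp, fun r => by simp,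
      fun r => by simp only [r.2, dif_pos], ?_⟩
    rw [map_sum, ← Finset.sum_coe_sort P₀, ← Finset.sum_coe_sort P, ← Finset.sum_coe_sort (range n)]
    simp only [Fintype.sum_sum_type, Submodule.coe_add, Submodule.coe_sum, Submodule.coe_smul, f,
      Sum.elim_inl, Sum.elim_inr, Finset.coe_mem, dif_pos, map_smul]
  have hli : LinearIndependent F f := Fintype.linearIndependent_iff.2 fun g hg => by
    obtain ⟨a, b, c, h1, h2, h3, h4⟩ := key g
    rw [hg, Submodule.coe_zero] at h4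
    have hu : ∑ r ∈ P₀, a r • x₀ r ∈ W₀ :=
      W₀.sum_mem fun r hr => W₀.smul_mem _ (h.mem₀ r hr)
    obtain ⟨h5, h6⟩ := h.step hu (by rw [← h4, map_zero]) (by rw [← h4, map_zero])
    rw [Finset.sum_eq_zero (s := P) fun i hi => by rw [h5 i hi, zero_smul],
      Finset.sum_eq_zero (s := range n) fun i hi => by rw [h6 i (mem_range.1 hi), zero_smul],
      add_zero, add_zero, map_sum] at h4
    simp only [map_smul] at h4
    rintro ((r | r) | r)
    · rw [h1]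
      exact Low.tri h.low₀ (M := r + 1) (fun q _ => by rw [← h4, map_zero]) r r.2 (by omega)
    · rw [h2, h5 _ r.2]
    · rw [h3, h6 _ (mem_range.1 r.2)]
  have hsp : Submodule.span F (Set.range f) = ⊤ := by
    refine Submodule.eq_top_of_finrank_eq (le_antisymm (Submodule.finrank_le _) ?_)
    rw [finrank_span_eq_card hli]
    simpa using h.card
  obtain ⟨g, hg⟩ := (Submodule.mem_span_range_iff_exists_fun F).1
    (hsp ▸ Submodule.mem_top : (⟨v, hv⟩ : W) ∈ Submodule.span F (Set.range f))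
  obtain ⟨a, b, c, -, -, -, h4⟩ := key g
  exact ⟨a, b, c, by rw [← h4, hg]⟩

/-- cocycles which are killed by the functionals are coboundaries -/
theorem Cel.ker (h : Cel D W₀ W P₀ P x₀ x φ₀ φ M n lam z) {v : E} (hv : v ∈ W) (h1 : D v = 0)
    (h2 : lam v = 0) : ∃ a : ℕ → F, v = D (∑ r ∈ P₀, a r • x₀ r) := by
  obtain ⟨a, b, c, rfl⟩ := h.span hv
  obtain ⟨h5, h6⟩ := h.step (W₀.sum_mem fun r hr => W₀.smul_mem _ (h.mem₀ r hr)) h1 h2
  refine ⟨a, ?_⟩
  rw [Finset.sum_eq_zero (s := P) fun i hi => by rw [h5 i hi, zero_smul],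
    Finset.sum_eq_zero (s := range n) fun i hi => by rw [h6 i (mem_range.1 hi), zero_smul],
    add_zero, add_zero]

/-- approximate cocycles can be corrected -/
theorem Cel.corr (h : Cel D W₀ W P₀ P x₀ x φ₀ φ M n lam z) {M₀ : ℕ} {v : E} (hv : v ∈ W₀)
    (h1 : ∀ q < M₀, φ₀ q (D v) = 0) (G : Submodule F E) (hG : ∀ r ∈ P₀, M₀ ≤ r → x₀ r ∈ G) :
    ∃ u ∈ W₀, u ∈ G ∧ D (v + u) = 0 := by
  obtain ⟨a, ha⟩ := h.ker (h.map v hv) (h.dd v hv) (h.ld v hv)
  have h2 : ∀ r ∈ P₀, r < M₀ → a r = 0 := Low.tri h.low₀ fun q hq => by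
    rw [← h1 q hq, ha, map_sum D]
    simp only [map_smul]
  refine ⟨-∑ r ∈ P₀, a r • x₀ r, W₀.neg_mem (W₀.sum_mem fun r hr => W₀.smul_mem _ (h.mem₀ r hr)),
    G.neg_mem (G.sum_mem fun r hr => ?_), by rw [map_add, map_neg, ← ha, add_neg_cancel]⟩
  rcases lt_or_ge r M₀ with h3 | h3
  · rw [h2 r hr h3, zero_smul]
    exact G.zero_mem
  · exact G.smul_mem _ (hG r hr h3)

end Vale.Agent.P236T
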