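import Vale.Agent.P236T.Defs
import Vale.Agent.P236T.LA
import Vale.Agent.P236A.Wt

/-!
# P236, block TABC: the filtration by the powers of `v_1`
-/

set_option linter.unusedSectionVars false

noncomputable section

namespace Vale.Agent.P236T

open Vale.Agent.P236A Vale.Agent.P236B MvPolynomial

variable {ι : Type} [Fintype ι] [DecidableEq ι] {k : Type} [CommRing k]

theorem dvd_iff_coeff {l : ℕ} {q : Av k} :
    (X 0 : Av k) ^ l ∣ q ↔ ∀ K : ℕ →₀ ℕ, K 0 < l → coeff K q = 0 := by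
  rw [X_pow_eq_monomial, monomial_one_dvd_iff_modMonomial_eq_zero]
  refine ⟨fun h K hK => ?_, fun h => MvPolynomial.ext _ _ fun K => ?_⟩
  · rw [← coeff_modMonomial_of_not_le q (s := Finsupp.single 0 l) fun h => by
      simpa [hK.not_ge] using h 0, h, coeff_zero]
  · by_cases hK : Finsupp.single 0 l ≤ K
    · rw [coeff_modMonomial_of_le _ hK, coeff_zero]
    · rw [coeff_modMonomial_of_not_le _ hK, coeff_zero, h K]
      rwa [Finsupp.single_le_iff, not_le] at hK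

/-- the multiples of `v_1 ^ l` -/
def Fil (k : Type) [CommRing k] (l : ℕ) : Submodule (Av k) (ι → Av k) where
  carrier := {c | ∀ g, (X 0 : Av k) ^ l ∣ c g}
  add_mem' ha hb g := dvd_add (ha g) (hb g)
  zero_mem' _ := dvd_zero _
  smul_mem' a _ h g := (h g).mul_left a

theorem mem_Fil {l : ℕ} {c : ι → Av k} : c ∈ Fil k l ↔ ∀ g, (X 0 : Av k) ^ l ∣ c g := Iff.rfl

theorem Fil_mono {l l' : ℕ} (h : l ≤ l') {c : ι → Av k} (hc : c ∈ Fil k l') : c ∈ Fil k l :=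
  fun g => (pow_dvd_pow _ h).trans (hc g)

theorem Fil_iff {l : ℕ} {c : ι → Av k} : c ∈ Fil k l ↔ ∃ c', c = (X 0 : Av k) ^ l • c' :=
  ⟨fun h => ⟨fun g => (h g).choose, funext fun g => (h g).choose_spec⟩, by
    rintro ⟨c', rfl⟩ g
    exact dvd_mul_right _ _⟩

theorem Fil_smul {l l' : ℕ} {c : ι → Av k} (hc : c ∈ Fil k l') :
    (X 0 : Av k) ^ l • c ∈ Fil k (l + l') := fun g => by
  rw [pow_add]
  exact mul_dvd_mul_left _ (hc g)

theorem Fil_cancel {l l' : ℕ} {c : ι → Av k} (hc : (X 0 : Av k) ^ l • c ∈ Fil k (l + l')) :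
    c ∈ Fil k l' := fun g => dvd_iff_coeff.2 fun K hK => by
  have h := dvd_iff_coeff.1 (hc g) (Finsupp.single 0 l + K) (by simpa using hK)
  rwa [Pi.smul_apply, smul_eq_mul, X_pow_eq_monomial, coeff_monomial_mul, one_mul] at h

/-- the cell `(s, T)` -/
def ClS (Γ : Gens ι) (k : Type) [CommRing k] (s T : ℕ) : Submodule k (ι → Av k) where
  carrier := {c | Cl Γ s T c}
  add_mem' ha hb := (hom_iff 3 Γ).2 (add_mem ((hom_iff 3 Γ).1 ha) ((hom_iff 3 Γ).1 hb))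
  zero_mem' := (hom_iff 3 Γ).2 (zero_mem _)
  smul_mem' a c h g := ⟨(weightedHomogeneousSubmodule k (wz 3) _).smul_mem a (h g).1, fun hg => by
    rw [Pi.smul_apply, (h g).2 hg, smul_zero]⟩

variable {Γ : Gens ι}

theorem Cl.smul {s T T' e : ℕ} (i : ℕ) {c : ι → Av k} (h : Cl Γ s T c)
    (he : 2 * (T' : ℤ) = e * wz 3 i + 2 * T) : Cl Γ s T' ((X i : Av k) ^ e • c) := by
  have h1 := HomG.smul Γ ((gA 3 k).pow_mem (Grd.X_mem _ (wz 3) i) e) ((hom_iff 3 Γ).1 h)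
  rw [nsmul_eq_mul, ← he] at h1
  exact (hom_iff 3 Γ).2 h1

theorem Cl.red {s T : ℕ} {c : ι → Av (ZMod 9)} (h : Cl Γ s T c) : Cl Γ s T (rc c) := fun g =>
  ⟨fun K hK => (h g).1 fun h0 => hK (by rw [rc, coeff_map, h0, map_zero]), fun hg => by
    rw [rc, (h g).2 hg, map_zero]⟩

theorem rc_add (c c' : ι → Av (ZMod 9)) : rc (c + c') = rc c + rc c' :=
  funext fun _ => map_add _ _ _

theorem rc_X0 (δ : Mat ι (Av (ZMod 9))) (c : ι → Av (ZMod 9)) : rc (X0 3 δ c) = D3 δ (rc c) :=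
  map_X0 3 r3 δ c

theorem exists_lift (c : ι → Av (ZMod 3)) : ∃ c' : ι → Av (ZMod 9), rc c' = c ∧
    ∀ g K, coeff K (c g) = 0 → coeff K (c' g) = 0 := by
  have h : ∀ g K, coeff K (∑ K ∈ (c g).support, monomial K ((coeff K (c g)).val : ZMod 9)) =
      ((coeff K (c g)).val : ZMod 9) := fun g K => by
    rw [coeff_sum]
    simp only [coeff_monomial, Finset.sum_ite_eq', mem_support_iff]
    split_ifs with h
    · rfl
    · rw [not_not.1 h]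
      rfl
  refine ⟨fun g => ∑ K ∈ (c g).support, monomial K ((coeff K (c g)).val : ZMod 9),
    funext fun g => MvPolynomial.ext _ _ fun K => ?_, fun g K hK => ?_⟩
  · rw [rc, coeff_map, h, map_natCast, ZMod.natCast_zmod_val]
  · rw [h, hK]
    rfl

theorem exists_lift' {s T l : ℕ} {c : ι → Av (ZMod 3)} (h : Cl Γ s T c) (hl : c ∈ Fil (ZMod 3) l) :
    ∃ c' : ι → Av (ZMod 9), rc c' = c ∧ Cl Γ s T c' ∧ c' ∈ Fil (ZMod 9) l := by
  obtain ⟨c', h1, h2⟩ := exists_lift c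
  exact ⟨c', h1, fun g => ⟨fun K hK => (h g).1 fun h0 => hK (h2 g K h0), fun hg =>
    MvPolynomial.ext _ _ fun K => h2 g K (by rw [(h g).2 hg, coeff_zero])⟩,
    fun g => dvd_iff_coeff.2 fun K hK => h2 g K (dvd_iff_coeff.1 (hl g) K hK)⟩

theorem X0_smul (δ : Mat ι (Av k)) {a : Av k} (ha : etaR 3 k a = C a) (c : ι → Av k) :
    X0 3 δ (a • c) = a • X0 3 δ c := by
  funext g
  simp only [X0, act0, Pi.smul_apply, smul_eq_mul, map_mul, ha, lin_C_mul, Finset.mul_sum]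

/-- the differential as a linear map -/
def XL (δ : Mat ι (Av k)) : (ι → Av k) →ₗ[k] (ι → Av k) where
  toFun := X0 3 δ
  map_add' := map_add (X0H 3 δ)
  map_smul' a c := by
    have h := X0_smul δ (a := C a) (by simp [etaR]) c
    simpa only [← algebraMap_eq, algebraMap_smul, RingHom.id_apply] using h

theorem eta_X0 : etaR 3 k (X 0) = C (X 0) + 3 * X 0 := by
  simp [etaR, eta_one]

theorem eta3 (l : ℕ) : etaR 3 (ZMod 3) (X 0 ^ l) = C (X 0 ^ l) := by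
  have h : (3 : Gm (ZMod 3)) = 0 := CharP.cast_eq_zero (Gm (ZMod 3)) 3
  rw [map_pow, eta_X0, h, zero_mul, add_zero, map_pow]

theorem eta9 (l : ℕ) : etaR 3 (ZMod 9) (X 0 ^ (3 * l)) = C (X 0 ^ (3 * l)) := by
  have h : (9 : Gm (ZMod 9)) = 0 := CharP.cast_eq_zero (Gm (ZMod 9)) 9
  have h1 : ∀ a b : Gm (ZMod 9), (a + 3 * b) ^ 3 = a ^ 3 := fun a b => by
    linear_combination (a ^ 2 * b + 3 * a * b ^ 2 + 3 * b ^ 3) * h
  rw [map_pow, eta_X0, map_pow, pow_mul, pow_mul, h1]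

theorem eta_v2 {e κ : ℕ} (h : 3 ^ e ∣ κ) : (C (X 0 ^ 3 ^ e) : Gm (ZMod 3)) ∣
    etaR 3 (ZMod 3) (X 1 ^ κ) - C (X 1 ^ κ) := by
  obtain ⟨m, rfl⟩ := h
  have h1 : (C (X 0) : Gm (ZMod 3)) ∣ etaR 3 (ZMod 3) (X 1) - C (X 1) := by
    have h2 := eta_sub_mem 3 (fun i => (C (X i) : Gm (ZMod 3))) X 1
    rw [← Ideal.mem_span_singleton]
    rw [show etaR 3 (ZMod 3) (X 1) = eta 3 (fun i => (C (X i) : Gm (ZMod 3))) X 1 by simp [etaR]]
    refine (Ideal.span_le.2 ?_ : _ ≤ Ideal.span {(C (X 0) : Gm (ZMod 3))}) h2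
    rintro _ (rfl | ⟨j, hj, rfl⟩)
    · rw [CharP.cast_eq_zero (Gm (ZMod 3)) 3]
      exact zero_mem _
    · obtain rfl : j = 0 := by simpa using hj
      exact Ideal.subset_span (by simp)
  rw [map_pow, map_pow, map_pow, pow_mul, pow_mul]
  refine Dvd.dvd.trans ?_ (sub_dvd_pow_sub_pow _ _ m)
  rw [← sub_pow_char_pow]
  exact pow_dvd_pow_of_dvd h1 _

variable (δ : Mat ι (Av (ZMod 9)))

theorem D3_eq (c : ι → Av (ZMod 3)) : D3 δ c = XL (mapM r3 δ) c := rfl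

theorem D3_smul (l : ℕ) (c : ι → Av (ZMod 3)) :
    D3 δ ((X 0 : Av (ZMod 3)) ^ l • c) = (X 0 : Av (ZMod 3)) ^ l • D3 δ c :=
  X0_smul _ (eta3 l) c

theorem X0_Fil {l : ℕ} {c : ι → Av (ZMod 9)} (h : c ∈ Fil (ZMod 9) (3 * l)) :
    X0 3 δ c ∈ Fil (ZMod 9) (3 * l) := by
  obtain ⟨c, rfl⟩ := Fil_iff.1 h
  exact Fil_iff.2 ⟨_, X0_smul _ (eta9 l) c⟩

theorem X0_Fil' {l : ℕ} {c : ι → Av (ZMod 9)} (h : c ∈ Fil (ZMod 9) (l + 1)) :
    X0 3 δ c ∈ Fil (ZMod 9) l := fun g => by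
  obtain ⟨c, rfl⟩ := Fil_iff.1 h
  have h9 : (9 : Gm (ZMod 9)) = 0 := CharP.cast_eq_zero (Gm (ZMod 9)) 9
  have h1 : ∀ (a b : Gm (ZMod 9)) (n : ℕ), (a + 3 * b) ^ (n + 1) = a ^ n * (a + 3 * (n + 1) * b) := by
    intro a b n
    induction n with
    | zero => simp
    | succ n ih =>
      rw [pow_succ, ih]
      push_cast
      linear_combination (a ^ n * (n + 1) * b ^ 2) * h9
  simp only [X0, act0, Pi.smul_apply, smul_eq_mul, map_mul, map_pow, eta_X0, h1, mul_assoc]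
  exact Finset.dvd_sum fun g' _ => by
    rw [← map_pow, lin_C_mul]
    exact dvd_mul_right _ _

theorem D3_v2 {e κ A : ℕ} (h : 3 ^ e ∣ κ) {c : ι → Av (ZMod 3)} (hc : c ∈ Fil (ZMod 3) A) :
    D3 δ ((X 1 : Av (ZMod 3)) ^ κ • c) - (X 1 : Av (ZMod 3)) ^ κ • D3 δ c ∈
      Fil (ZMod 3) (A + 3 ^ e) := by
  obtain ⟨c, rfl⟩ := Fil_iff.1 hc
  rw [smul_comm, D3_smul, D3_smul, smul_comm _ _ (D3 δ c), ← smul_sub]
  refine Fil_smul fun g => ?_
  obtain ⟨q, hq⟩ := eta_v2 h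
  simp only [D3, X0, act0, Pi.sub_apply, Pi.smul_apply, smul_eq_mul, map_mul, Finset.mul_sum,
    ← Finset.sum_sub_distrib, ← lin_C_mul, ← map_sub, ← sub_mul, hq, mul_assoc]
  exact Finset.dvd_sum fun g' _ => by
    rw [lin_C_mul]
    exact dvd_mul_right _ _

/-- `δ'` and `δ` agree modulo `(3 v_1 ^ a, v_1 ^ N)` -/
def Close (Γ : Gens ι) (δ' δ : Mat ι (Av (ZMod 9))) (aa Nn : ℕ → ℕ) : Prop :=
  ∀ g g' J, (X 0 : Av (ZMod 9)) ^ aa (Γ.deg g) ∣ δ' g g' J - δ g g' J ∧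
    (X 0 : Av (ZMod 3)) ^ Nn (Γ.deg g) ∣ map r3 (δ' g g' J - δ g g' J)

variable {δ} {δ' : Mat ι (Av (ZMod 9))} {aa Nn : ℕ → ℕ}

theorem Close.nine (h : Close Γ δ' δ aa Nn) {s T : ℕ} {c : ι → Av (ZMod 9)} (hc : Cl Γ s T c) :
    X0 3 δ' c - X0 3 δ c ∈ Fil (ZMod 9) (aa s) := fun g => Ideal.mem_span_singleton.1
  (X0_sub_mem 3 Γ (fun g g' J hg _ => Ideal.mem_span_singleton.2 (hg ▸ (h g g' J).1)) hc g)

theorem Close.three (h : Close Γ δ' δ aa Nn) {s T : ℕ} {c : ι → Av (ZMod 3)} (hc : Cl Γ s T c) :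
    D3 δ' c - D3 δ c ∈ Fil (ZMod 3) (Nn s) := fun g => Ideal.mem_span_singleton.1
  (X0_sub_mem 3 Γ (fun g g' J hg _ => Ideal.mem_span_singleton.2 (by
    have := (h g g' J).2
    rwa [map_sub, hg] at this)) hc g)

theorem homD_red (h : HomD 3 Γ δ) : HomD 3 Γ (mapM r3 δ) where
  wt g g' J K hK := h.wt g g' J fun h0 => hK (by rw [mapM, coeff_map, h0, map_zero])
  deg g g' J hg := by rw [mapM, h.deg g g' J hg, map_zero]
  unit g := by rw [mapM, h.unit, map_zero]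

theorem Cl.D3 (h : HomD 3 Γ δ) {s T : ℕ} {c : ι → Av (ZMod 3)} (hc : Cl Γ s T c) :
    Cl Γ (s + 1) T (D3 δ c) := Hom.X0 3 Γ (homD_red h) hc

theorem D3_D3 {N s T : ℕ} (h : SqZero 3 Γ δ (2 * N)) (hT : T ≤ N) {c : ι → Av (ZMod 3)}
    (hc : Cl Γ s T c) : D3 δ (D3 δ c) = 0 :=
  X0_X0_zero 3 Γ (N := 2 * N) (fun g g' J hJ => by
    rw [← mapM_RR, mapM, h g g' J hJ, map_zero]) (by omega) hc

end Vale.Agent.P236T
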