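import Vale.Agent.P236T.Pack

/-!
# P236, block TABC: products of a matrix with many vectors
-/

noncomputable section

namespace Vale.Agent.P236T

open Vale.Agent.P236C Finset

/-- the vectors are put in blocks of width `w` -/
def pk {α : Type} (w : Nat) (l : List (Nat × α)) : Nat :=
  List.rec 0 (fun x _ ih => Nat.add (Nat.land x.1 (ones w)) (Nat.shiftLeft ih w)) l

theorem fld_pk {α : Type} (w : ℕ) (l : List (ℕ × α)) (v : ℕ) (h : v < l.length) :
    fld w (pk w l) v = l[v].1 % 2 ^ w := by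
  induction l generalizing v with
  | nil => simp at h
  | cons x l ih =>
    have e : pk w (x :: l) = x.1 % 2 ^ w + 2 ^ w * pk w l := by
      rw [← land_ones, mul_comm, ← Nat.shiftLeft_eq]
      rfl
    rw [e]
    cases v with
    | zero => simp [fld_zero]
    | succ v =>
      rw [fld_succ, Nat.add_mul_div_left _ _ (Nat.two_pow_pos w),
        Nat.div_eq_of_lt (Nat.mod_lt _ (Nat.two_pow_pos w)), zero_add, ih v (by simpa using h)]
      rfl

/-- one layer of rows -/
def lay (X m3 mS : Nat) (M : Nat → Nat) (o k : Nat) : Nat → Nat :=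
  Nat.rec (motive := fun _ => Nat → Nat) (fun a => a) (fun p ih a =>
    frc (Nat.land (Nat.shiftRight X (Nat.mul 12 (Nat.add o p))) m3) fun sel =>
      Bool.rec (frc (Nat.add a (Nat.mul (Nat.land (M p) mS) sel)) ih) (ih a) (Nat.beq sel 0)) k

theorem lay_succ (X m3 mS : ℕ) (M : ℕ → ℕ) (o k a : ℕ) : lay X m3 mS M o (k + 1) a =
    lay X m3 mS M o k (a + (M k &&& mS) * ((X >>> (12 * (o + k))) &&& m3)) := by
  have e : lay X m3 mS M o (k + 1) a = frc ((X >>> (12 * (o + k))) &&& m3) fun sel =>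
      Bool.rec (frc (a + (M k &&& mS) * sel) (lay X m3 mS M o k)) (lay X m3 mS M o k a)
        (Nat.beq sel 0) := rfl
  rw [e, frc_eq]
  rcases h : Nat.beq ((X >>> (12 * (o + k))) &&& m3) 0 with _ | _
  · exact frc_eq _ _
  · rw [Nat.eq_of_beq_eq_true h]
    rfl

/-- all layers -/
def kron (X m3 mS m63 B : Nat) (len : Nat → Nat) (M : Nat → Nat → Nat) (n : Nat) : Nat :=
  Nat.rec (motive := fun _ => Nat) 0
    (fun l ih => fold m63 (lay X m3 mS (M l) (Nat.mul l B) (len l) ih)) n

/-- the entry of a row -/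
def en (c R q : ℕ) : ℕ := if q < c then fld 12 R q % 16 else 0

theorem dg_en (b : Prop) [Decidable b] (X i c R q : ℕ) :
    (if b then dg X i else 0) * en c R q ≤ 45 := by
  have h1 : (if b then dg X i else 0) ≤ 3 := by
    rw [dg]
    split_ifs <;> omega
  have h2 : en c R q ≤ 15 := by
    rw [en]
    split_ifs <;> omega
  exact Nat.mul_le_mul h1 h2

variable {k : Type} [CommRing k] {m nv c : ℕ}

/-- the invariant of the accumulator -/
def Acc (m nv a b : ℕ) (f : ℕ → ℕ → k) : Prop :=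
  (∀ i, fld 12 a i ≤ b) ∧ ∀ v < nv, ∀ q < m, (fld 12 a (m * v + q) : k) = f v q

theorem fld_term (hc : c ≤ m) (R X ρ v : ℕ) {q : ℕ} (hq : q < m) :
    fld 12 ((R &&& (15 * rep 12 c)) * ((X >>> (12 * ρ)) &&& (3 * rep (12 * m) nv))) (m * v + q) =
      (if v < nv then dg X (m * v + ρ) else 0) * en c R q := by
  have h1 : ∀ q, fld 12 (R &&& (15 * rep 12 c)) q = en c R q := fun q => by
    rw [fld_and, fld_mul_rep (by norm_num) (by norm_num), en]
    split_ifs
    exacts [Nat.and_two_pow_sub_one_eq_mod _ 4, Nat.and_zero _]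
  have h2 : ∀ v, fld (12 * m) ((X >>> (12 * ρ)) &&& (3 * rep (12 * m) nv)) v =
      if v < nv then dg X (m * v + ρ) else 0 := fun v => by
    have h3 : 2 ^ 12 ≤ 2 ^ (12 * m) := Nat.pow_le_pow_right two_pos (by omega)
    rw [fld_and, fld_mul_rep (by omega) (by omega)]
    split_ifs
    · rw [show (3 : ℕ) = 2 ^ 2 - 1 from rfl, Nat.and_two_pow_sub_one_eq_mod, dg, fld, fld,
        ← Nat.shiftRight_add, Nat.mod_mod_of_dvd _ (Nat.pow_dvd_pow 2 (by omega)),
        Nat.mod_mod_of_dvd _ (by norm_num), show 12 * ρ + 12 * m * v = 12 * (m * v + ρ) by ring]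
    · exact Nat.and_zero _
  have h3 : ∀ v q, fld 12 ((if v < nv then dg X (m * v + ρ) else 0) * (R &&& (15 * rep 12 c))) q =
      (if v < nv then dg X (m * v + ρ) else 0) * en c R q := fun v q => by
    rw [fld_mul fun j => ?_, h1]
    rw [h1]
    exact (dg_en _ _ _ _ _ _).trans_lt (by norm_num)
  rw [← fld_fld hq, fld_mul fun j => ?_, h2, mul_comm, h3]
  rw [h2, mul_comm]
  exact lt_of_fld (by norm_num) fun i hi => by
    rw [h3, en, if_neg (show ¬i < c by omega), mul_zero]

theorem acc_lay (hm : 0 < m) (hc : c ≤ m) (X : ℕ) (M : ℕ → ℕ) (o n : ℕ) {a b : ℕ} {f : ℕ → ℕ → k}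
    (h : Acc m nv a b f) (hb : b + 45 * n < 4096) :
    Acc m nv (lay X (3 * rep (12 * m) nv) (15 * rep 12 c) M o n a) (b + 45 * n) fun v q =>
      f v q + ∑ p ∈ range n, (dg X (m * v + (o + p)) : k) * en c (M p) q := by
  induction n generalizing a b f with
  | zero => exact ⟨h.1, fun v hv q hq => (h.2 v hv q hq).trans (by simp)⟩
  | succ n ih =>
    rw [lay_succ]
    have h1 : ∀ i, fld 12 ((M n &&& (15 * rep 12 c)) *
        ((X >>> (12 * (o + n))) &&& (3 * rep (12 * m) nv))) i ≤ 45 := fun i => by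
      rw [← Nat.div_add_mod i m, fld_term hc _ _ _ _ (Nat.mod_lt _ hm)]
      exact dg_en _ _ _ _ _ _
    have h2 := fld_add (w := 12) fun j => (add_le_add (h.1 j) (h1 j)).trans_lt (by omega)
    have h3 := ih (b := b + 45) (f := fun v q => f v q + (dg X (m * v + (o + n)) : k) * en c (M n) q)
      ⟨fun i => (h2 i).trans_le (add_le_add (h.1 i) (h1 i)), fun v hv q hq => by
        rw [h2, fld_term hc _ _ _ _ hq, if_pos hv, Nat.cast_add, Nat.cast_mul, h.2 v hv q hq]⟩
      (by omega)
    refine ⟨fun i => (h3.1 i).trans (by omega), fun v hv q hq => ?_⟩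
    simp only [h3.2 v hv q hq, sum_range_succ]
    ring

theorem acc_kron (h6 : (2 : k) ^ 6 = 1) (hm : 0 < m) (hc : c ≤ m) (X B : ℕ) {len : ℕ → ℕ}
    (M : ℕ → ℕ → ℕ) (n : ℕ) (hl : ∀ l < n, len l ≤ 88) :
    Acc m nv (kron X (3 * rep (12 * m) nv) (15 * rep 12 c) (63 * rep 12 (m * nv)) B len M n) 126
      fun v q => ∑ l ∈ range n, ∑ p ∈ range (len l),
        (dg X (m * v + (l * B + p)) : k) * en c (M l p) q := by
  induction n with
  | zero => exact ⟨fun i => (fld_zero_left _ _).trans_le (by norm_num), fun v _ q _ => by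
      simp [kron]⟩
  | succ n ih =>
    have h1 := acc_lay hm hc X (M n) (n * B) (len n) (ih fun l h => hl l (by omega))
      (by have := hl n (by omega); omega)
    rw [show kron X (3 * rep (12 * m) nv) (15 * rep 12 c) (63 * rep 12 (m * nv)) B len M (n + 1) =
      fold _ (lay X _ _ (M n) (n * B) (len n) (kron X _ _ _ B len M n)) from rfl]
    generalize lay X _ _ (M n) (n * B) (len n) _ = a at h1 ⊢
    refine ⟨fun i => ?_, fun v hv q hq => ?_⟩
    · have := fld_lt 12 a i
      rw [fld_fold]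
      split_ifs <;> omega
    · have h2 : ((64 : ℕ) : k) = 1 := by
        rw [← h6]
        norm_num
      have h3 := h1.2 v hv q hq
      simp only [sum_range_succ, ← h3]
      rw [fld_fold, if_pos (by nlinarith)]
      conv_rhs => rw [← Nat.mod_add_div (fld 12 _ _) 64, Nat.cast_add, Nat.cast_mul, h2, one_mul]
      exact Nat.cast_add _ _

/-- the tests are applied to the blocks -/
def tst (w : Nat) (ts : List (Nat × (Nat → Bool))) : Nat → Bool :=
  List.rec (fun _ => true) (fun t _ ih Y =>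
    Bool.rec false (frc (Nat.shiftRight Y w) ih) (frc (Nat.land Y (ones w)) t.2)) ts

theorem tst_spec {w : ℕ} {ts : List (ℕ × (ℕ → Bool))} {Y : ℕ} (h : tst w ts Y = true) (v : ℕ)
    (hv : v < ts.length) : ts[v].2 (fld w Y v) = true := by
  induction ts generalizing v Y with
  | nil => simp at hv
  | cons t ts ih =>
    obtain ⟨h1, h2⟩ := rec_false h
    rw [frc_eq] at h1 h2
    cases v with
    | zero => rwa [land_eq, land_ones] at h1
    | succ v =>
      rw [fld_succ, ← Nat.shiftRight_eq_div_pow]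
      exact ih h2 v (by simpa using hv)

/-- the matrix is applied to the vectors, and the tests to the results -/
def runT (m c n B : Nat) (len : Nat → Nat) (M : Nat → Nat → Nat)
    (ts : List (Nat × (Nat → Bool))) : Bool :=
  frc ts.length fun nv => Bool.rec (frc (Nat.mul 12 m) fun w => frc (pk w ts) fun X =>
    frc (Nat.mul 3 (rep w nv)) fun m3 => frc (Nat.mul 15 (rep 12 c)) fun mS =>
      frc (Nat.mul 63 (rep 12 (Nat.mul m nv))) fun m63 =>
        frc (kron X m3 mS m63 B len M n) (tst w ts)) true (Nat.beq nv 0)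

theorem runT_spec (h6 : (2 : k) ^ 6 = 1) (hm : 0 < m) (hc : c ≤ m) {n B : ℕ} {len : ℕ → ℕ}
    {M : ℕ → ℕ → ℕ} {ts : List (ℕ × (ℕ → Bool))} (hl : ∀ l < n, len l ≤ B) (hB : B ≤ 88)
    (hn : n * B ≤ m) (h : runT m c n B len M ts = true) : ∀ t ∈ ts, ∃ y, t.2 y = true ∧
      ∀ q < c, (fld 12 y q : k) = ∑ l ∈ range n, ∑ p ∈ range (len l),
        (dg t.1 (l * B + p) : k) * (fld 12 (M l p) q % 16 : ℕ) := by
  intro t ht
  obtain ⟨v, hv, rfl⟩ := List.getElem_of_mem ht
  rw [runT, frc_eq] at h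
  rcases h0 : Nat.beq ts.length 0 with _ | _
  swap
  · have := Nat.eq_of_beq_eq_true h0
    omega
  simp only [h0, frc_eq] at h
  refine ⟨_, tst_spec h v hv, fun q hq => ?_⟩
  refine (congrArg Nat.cast (fld_fld (hq.trans_le hc) _ v)).trans ?_
  refine ((acc_kron h6 hm hc _ B M n fun l h => (hl l h).trans hB).2 v hv q (by omega)).trans ?_
  refine sum_congr rfl fun l hl' => sum_congr rfl fun p hp => ?_
  have h1 : l * B + p < m := by
    have := hl l (mem_range.1 hl')
    have := mem_range.1 hp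
    have := mem_range.1 hl'
    nlinarith
  rw [en, if_pos hq, dg, ← fld_fld h1, Nat.mul_eq, fld_pk _ _ _ hv, fld_mod, if_pos h1, dg]

end Vale.Agent.P236T
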