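import Vale.Agent.P236C.Bits

/-!
# P236, block TABC: packed vectors
-/

noncomputable section

namespace Vale.Agent.P236T

open Vale.Agent.P236C Finset

/-- the field number `i` of width `w` -/
def fld (w x i : ℕ) : ℕ := x >>> (w * i) % 2 ^ w

theorem fld_lt (w x i : ℕ) : fld w x i < 2 ^ w := Nat.mod_lt _ (Nat.two_pow_pos w)

theorem fld_zero (w x : ℕ) : fld w x 0 = x % 2 ^ w := rfl

theorem fld_succ (w x i : ℕ) : fld w x (i + 1) = fld w (x / 2 ^ w) i := by
  rw [fld, fld, ← Nat.shiftRight_eq_div_pow, ← Nat.shiftRight_add, Nat.mul_succ, add_comm]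

@[simp] theorem fld_zero_left (w i : ℕ) : fld w 0 i = 0 := by simp [fld]

theorem testBit_fld (w x i p : ℕ) :
    (fld w x i).testBit p = (decide (p < w) && x.testBit (w * i + p)) := by
  rw [fld, Nat.testBit_mod_two_pow, Nat.testBit_shiftRight]

theorem fld_add {w x y : ℕ} (h : ∀ j, fld w x j + fld w y j < 2 ^ w) (i : ℕ) :
    fld w (x + y) i = fld w x i + fld w y i := by
  induction i generalizing x y with
  | zero =>
    have h0 : x % 2 ^ w + y % 2 ^ w < 2 ^ w := h 0
    rw [fld_zero, Nat.add_mod, Nat.mod_eq_of_lt h0, fld_zero, fld_zero]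
  | succ i ih =>
    have h0 : x % 2 ^ w + y % 2 ^ w < 2 ^ w := h 0
    rw [fld_succ, fld_succ, fld_succ, Nat.add_div_eq_of_add_mod_lt h0]
    exact ih fun j => by simpa only [fld_succ] using h (j + 1)

theorem fld_mul {w x c : ℕ} (h : ∀ j, c * fld w x j < 2 ^ w) (i : ℕ) :
    fld w (c * x) i = c * fld w x i := by
  induction c generalizing i with
  | zero => simp
  | succ c ih =>
    have h1 := ih fun j => (Nat.mul_le_mul_right _ c.le_succ).trans_lt (h j)
    rw [Nat.succ_mul, fld_add fun j => by rw [h1, ← Nat.succ_mul]; exact h j, h1, Nat.succ_mul]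

theorem fld_and (w x y i : ℕ) : fld w (x &&& y) i = fld w x i &&& fld w y i :=
  Nat.eq_of_testBit_eq fun p => by
    simp only [testBit_fld, Nat.testBit_and]
    cases decide (p < w) <;> simp

theorem fld_fld {w m q : ℕ} (h : q < m) (x v : ℕ) :
    fld w (fld (w * m) x v) q = fld w x (m * v + q) :=
  Nat.eq_of_testBit_eq fun p => by
    simp only [testBit_fld]
    by_cases hp : p < w
    · have : w * q + p < w * m := by nlinarith
      simp [hp, this, show w * m * v + (w * q + p) = w * (m * v + q) + p by ring]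
    · simp [hp]

theorem fld_shr (w x i j : ℕ) : fld w (x >>> (w * j)) i = fld w x (i + j) := by
  rw [fld, fld, ← Nat.shiftRight_add, mul_add, add_comm]

theorem fld_mod (w x n i : ℕ) : fld w (x % 2 ^ (w * n)) i = if i < n then fld w x i else 0 :=
  Nat.eq_of_testBit_eq fun p => by
    split_ifs with h
    · simp only [testBit_fld, Nat.testBit_mod_two_pow]
      by_cases hp : p < w
      · simp [show w * i + p < w * n by nlinarith]
      · simp [hp]
    · simp [testBit_fld, Nat.testBit_mod_two_pow, show ¬w * i + p < w * n by nlinarith]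

theorem fld_of_lt {w x n i : ℕ} (h : x < 2 ^ (w * n)) (hi : n ≤ i) : fld w x i = 0 := by
  rw [← Nat.mod_eq_of_lt h, fld_mod, if_neg hi.not_gt]

theorem fld_of_shr {w x n i : ℕ} (h : x >>> (w * n) = 0) (hi : n ≤ i) : fld w x i = 0 := by
  obtain ⟨i, rfl⟩ := Nat.exists_eq_add_of_le' hi
  rw [← fld_shr, h, fld_zero_left]

theorem lt_of_fld {w x n : ℕ} (hw : 0 < w) (h : ∀ i, n ≤ i → fld w x i = 0) : x < 2 ^ (w * n) :=
  Nat.lt_pow_two_of_testBit _ fun p hp => by
    have h1 := congrArg (·.testBit (p % w)) (h (p / w) ((Nat.le_div_iff_mul_le hw).2 (by linarith)))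
    simpa [testBit_fld, Nat.mod_lt _ hw, Nat.div_add_mod] using h1

theorem fld_rep {w : ℕ} (hw : 0 < w) (n i : ℕ) : fld w (rep w n) i = if i < n then 1 else 0 :=
  Nat.eq_of_testBit_eq fun p => by
    rw [testBit_fld]
    by_cases hp : p < w
    · rw [testBit_rep hp]
      split_ifs with h
      · cases p <;> simp [h, hw, Nat.testBit_succ]
      · simp [h]
    · split_ifs with h
      · obtain ⟨p, rfl⟩ : ∃ q, p = q + 1 := ⟨p - 1, by omega⟩
        simp [hp, Nat.testBit_succ]
      · simp [hp]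

theorem fld_mul_rep {w c : ℕ} (hw : 0 < w) (hc : c < 2 ^ w) (n i : ℕ) :
    fld w (c * rep w n) i = if i < n then c else 0 := by
  rw [fld_mul fun j => by rw [fld_rep hw]; split_ifs <;> simp [hc], fld_rep hw]
  split_ifs <;> simp

theorem cast_mod {R : Type} [CommRing R] {w : ℕ} (h : (2 : R) ^ w = 1) (x n : ℕ) :
    ((x % 2 ^ (w * n) : ℕ) : R) = ∑ i ∈ range n, (fld w x i : R) := by
  induction n with
  | zero => simp [Nat.mod_one]
  | succ n ih =>
    rw [sum_range_succ, ← ih, Nat.mul_succ, pow_add, Nat.mod_mul, fld, Nat.shiftRight_eq_div_pow]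
    have h1 : (2 : R) ^ (w * n) = 1 := by rw [pow_mul, h, one_pow]
    rw [Nat.cast_add, Nat.cast_mul, Nat.cast_pow, Nat.cast_ofNat, h1, one_mul]

/-- the digit number `i` -/
def dg (x i : ℕ) : ℕ := fld 12 x i % 4

/-- the two masks of a functional -/
def msks (b n x : Nat) : Nat × Nat :=
  (Nat.mul (ones b) (Nat.land x (rep 12 n)),
    Nat.mul (ones b) (Nat.land (Nat.shiftRight x 1) (rep 12 n)))

/-- the value of a functional -/
def dot (m : Nat × Nat) (y : Nat) : Nat := Nat.add (Nat.land y m.1) (Nat.mul 2 (Nat.land y m.2))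

theorem cast_mask {R : Type} [CommRing R] (h : (2 : R) ^ 12 = 1) {b : ℕ} (hb : b ≤ 12)
    (n x y : ℕ) : ((y &&& (ones b * (x &&& rep 12 n)) : ℕ) : R) =
      ∑ i ∈ range n, ((fld 12 x i % 2 : ℕ) : R) * (fld 12 y i % 2 ^ b : ℕ) := by
  have h1 : ∀ i, fld 12 (x &&& rep 12 n) i = if i < n then fld 12 x i % 2 else 0 := fun i => by
    rw [fld_and, fld_rep (by norm_num)]
    split_ifs <;> simp
  have h3 : ones b < 2 ^ 12 := by
    have := Nat.two_pow_pos b
    have := Nat.pow_le_pow_right two_pos hb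
    rw [ones_eq]
    omega
  have h2 : ∀ i, fld 12 (y &&& (ones b * (x &&& rep 12 n))) i =
      if i < n then fld 12 x i % 2 * (fld 12 y i % 2 ^ b) else 0 := fun i => by
    rw [fld_and, fld_mul fun j => ?_, h1]
    · split_ifs
      · rcases Nat.mod_two_eq_zero_or_one (fld 12 x i) with h | h <;> simp [h, land_ones]
      · simp
    · rw [h1]
      split_ifs
      · rcases Nat.mod_two_eq_zero_or_one (fld 12 x j) with h | h
        · simp [h]
        · rwa [h, mul_one]
      · simp
  have h4 := lt_of_fld (w := 12) (n := n) (x := y &&& (ones b * (x &&& rep 12 n))) (by norm_num)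
    fun i hi => by rw [h2, if_neg hi.not_gt]
  rw [← Nat.mod_eq_of_lt h4, cast_mod h]
  exact sum_congr rfl fun i hi => by rw [h2, if_pos (mem_range.1 hi), Nat.cast_mul]

theorem cast_dot {R : Type} [CommRing R] (h : (2 : R) ^ 12 = 1) {b : ℕ} (hb : b ≤ 12) (n x y : ℕ) :
    ((dot (msks b n x) y : ℕ) : R) = ∑ i ∈ range n, (dg x i : R) * (fld 12 y i % 2 ^ b : ℕ) := by
  show (((y &&& (ones b * (x &&& rep 12 n))) +
    2 * (y &&& (ones b * ((x >>> 1) &&& rep 12 n))) : ℕ) : R) = _
  rw [Nat.cast_add, Nat.cast_mul, cast_mask h hb, cast_mask h hb, mul_sum, ← sum_add_distrib]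
  refine sum_congr rfl fun i _ => ?_
  have h1 : fld 12 (x >>> 1) i % 2 = fld 12 x i / 2 % 2 := by
    rw [fld, fld, ← Nat.shiftRight_add, add_comm, Nat.shiftRight_add,
      Nat.shiftRight_eq_div_pow _ 1]
    omega
  rw [h1, ← mul_assoc, ← add_mul, ← Nat.cast_mul, ← Nat.cast_add, dg]
  congr 2
  omega

/-- the first `n` fields are divisible by `3` -/
def div3 (y n : Nat) : Bool :=
  (fun y' => Bool.rec false
    (Nat.beq (Nat.land (Nat.div y' 3) (Nat.mul 3072 (rep 12 n))) 0) (Nat.beq (Nat.mod y' 3) 0))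
    (Nat.land y (ones (Nat.mul 12 n)))

theorem div3_spec {y n : ℕ} (h : div3 y n = true) {i : ℕ} (hi : i < n) :
    (fld 12 y i : ZMod 3) = 0 := by
  obtain ⟨h1, h2⟩ := rec_false h
  replace h1 : y % 2 ^ (12 * n) % 3 = 0 := by
    simpa [land_eq, land_ones, mod_eq] using Nat.eq_of_beq_eq_true h1
  replace h2 : y % 2 ^ (12 * n) / 3 &&& 3072 * rep 12 n = 0 := by
    simpa [land_eq, land_ones, div_eq] using Nat.eq_of_beq_eq_true h2
  set q := y % 2 ^ (12 * n) / 3 with hq
  have h3 : ∀ j, 3 * fld 12 q j < 2 ^ 12 := fun j => by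
    rcases lt_or_ge j n with hj | hj
    · have h4 := congrArg (fld 12 · j) h2
      simp only [fld_and, fld_mul_rep (by norm_num : 0 < 12) (by norm_num : 3072 < 2 ^ 12), if_pos hj,
        fld_zero_left] at h4
      have h5 : fld 12 q j < 2 ^ 10 := Nat.lt_pow_two_of_testBit _ fun p hp => by
        by_cases hp' : p < 12
        · have h6 := congrArg (·.testBit p) h4
          obtain rfl | rfl : p = 10 ∨ p = 11 := by omega
          all_goals simpa [Nat.testBit_and, show (3072 : ℕ).testBit 10 = true by decide,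
            show (3072 : ℕ).testBit 11 = true by decide] using h6
        · simp [testBit_fld, hp']
      omega
    · rw [fld_of_lt ((Nat.div_le_self _ _).trans_lt (Nat.mod_lt _ (Nat.two_pow_pos _))) hj]
      norm_num
  have h4 := fld_mod 12 y n i
  rw [if_pos hi, show y % 2 ^ (12 * n) = 3 * q by omega, fld_mul h3] at h4
  rw [← h4, Nat.cast_mul, show ((3 : ℕ) : ZMod 3) = 0 from rfl, zero_mul]

/-- partial reduction of all fields modulo `9` -/
def fold (m x : Nat) : Nat := Nat.add (Nat.land x m) (Nat.land (Nat.shiftRight x 6) m)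

theorem fld_fold (n x i : ℕ) : fld 12 (fold (63 * rep 12 n) x) i =
    if i < n then fld 12 x i % 64 + fld 12 x i / 64 else 0 := by
  have h1 : ∀ y j, fld 12 (y &&& 63 * rep 12 n) j = if j < n then fld 12 y j % 64 else 0 :=
    fun y j => by
      rw [fld_and, fld_mul_rep (by norm_num) (by norm_num)]
      split_ifs
      exacts [Nat.and_two_pow_sub_one_eq_mod _ 6, Nat.and_zero _]
  have h2 : fld 12 (x >>> 6) i % 64 = fld 12 x i / 64 := by
    rw [fld, fld, ← Nat.shiftRight_add, add_comm, Nat.shiftRight_add,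
      Nat.shiftRight_eq_div_pow _ 6]
    omega
  show fld 12 ((x &&& (63 * rep 12 n)) + ((x >>> 6) &&& (63 * rep 12 n))) i = _
  rw [fld_add fun j => by rw [h1, h1]; split_ifs <;> omega, h1, h1, h2]
  split_ifs <;> rfl

end Vale.Agent.P236T
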