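import Vale.Agent.P236T.Chk

/-!
# P236, block TABC: soundness of the checker
-/

set_option linter.unusedSectionVars false

noncomputable section

namespace Vale.Agent.P236T

open Vale.Agent.P236A Vale.Agent.P236C Vale.Agent.P236K MvPolynomial Finset

variable {ι : Type} [Fintype ι] [DecidableEq ι] {Γ : Gens ι} {N : ℕ} (L : Lay Γ N) (P : Pr)
  (δ : Mat ι (Av (ZMod 9)))

/-- The numbers `R T ρ` are the rows of the matrix of the differential on the level `s`: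
modulo `(3, v_1 ^ n)` on the monomials without `v_1`, modulo `(9, v_1 ^ a)` on the monomials of
degree `< 3` in `v_1`. -/
structure IsR (s a n : ℕ) (R : ℕ → ℕ → ℕ) : Prop where
  three : ∀ T ≤ N, ∀ p < L.len s T, ∀ q < n * L.B (s + 1), L.Val (s + 1) T q →
    L.cf _ (s + 1) T q (D3 δ (L.bs _ s T p)) = (fld 12 (R T p) q % 2 ^ 4 : ℕ)
  nine : ∀ T ≤ N, ∀ l < 3, l ≤ T → ∀ p < L.len s (T - l), ∀ q < a * L.B (s + 1),
    L.Val (s + 1) T q → L.cf _ (s + 1) T q (X0 3 δ (L.bs _ s T (l * L.B s + p))) =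
      (fld 12 (R T (l * L.B s + p)) q % 2 ^ 4 : ℕ)

/-- The functional is the constant coefficient at the generator `g`. -/
def Top (s T i : ℕ) (g : ι) : Prop := ∃ q, i < P.τ.dim s T ∧ gW P N s T i = 1 ∧
  gl P N s T i = 1 <<< (12 * q) ∧ q < L.len s T ∧ L.gen s T q = g ∧ L.mon s T q = 0

/-- The global conditions. -/
structure Gd : Prop where
  v2 : L.V2
  reg : ∀ {s T}, P.τ.reg s T = true → s + 1 ≤ P.S ∧ T ≤ N
  mul : ∀ {k s T i l}, P.τ.mul k s T i l < 3 → k < P.K ∧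
    l < P.τ.dim (P.τ.ms k + s) (P.τ.mT k + T) ∧ (0 < k → T + 4 * P.kap k ≤ N)
  bok : ∀ {s T i l}, P.τ.bok s T i l < 3 → l < P.τ.dim (s + 1) T
  ms_zero : P.τ.ms 0 = 0
  mT_zero : P.τ.mT 0 = 1
  ms_pos : ∀ k, 0 < k → P.τ.ms k = 1 ∧ 3 ^ P.ex k ∣ P.kap k ∧ P.τ.mT k + 3 ^ P.ex k = 4 * P.kap k
  reg_zero : P.τ.reg 0 0 = true
  dim_zero : P.τ.dim 0 0 = 1
  top_zero : Top L P 0 0 0 Γ.g0
  lead : ∀ j : ℕ, j ≤ 3 → P.τ.reg 2 (3 ^ (j + 1)) = true ∧ ∃ g : ι,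
    (∀ g', Γ.deg g' = 2 → Γ.wt g' = 2 * 3 ^ (j + 1) → g' = g) ∧ Top L P 2 (3 ^ (j + 1)) (P.τ.lead j) g

variable {L P δ} {s T a n : ℕ} {R : ℕ → ℕ → ℕ}

theorem two3 : (2 : ZMod 3) ^ 6 = 1 := by decide
theorem two9 : (2 : ZMod 9) ^ 6 = 1 := by decide
theorem tw3 : (2 : ZMod 3) ^ 12 = 1 := by decide
theorem tw9 : (2 : ZMod 9) ^ 12 = 1 := by decide

theorem cf_smul_row {k : Type} [CommRing k] {d n R : ℕ} {y : ι → Av k}
    (h : ∀ q < n * L.B s, L.Val s T q → L.cf k s T q y = (fld 12 R q % 2 ^ 4 : ℕ)) {q : ℕ}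
    (hq : q < n * L.B s) (hv : L.Val s (T + d) q) :
    L.cf k s (T + d) q ((X 0 : Av k) ^ d • y) = (fld 12 (R <<< (12 * (d * L.B s))) q % 2 ^ 4 : ℕ) := by
  rcases lt_or_ge q (d * L.B s) with h1 | h1
  · rw [fld_shl_lt _ _ h1, L.cf_Fil (Fil_iff.2 ⟨_, rfl⟩) h1]
    simp
  · obtain ⟨q, rfl⟩ := Nat.exists_eq_add_of_le' h1
    rw [L.cf_shift, fld_shl, h q (by omega) ((L.val_shift _ _ _ _).1 hv)]

theorem IsR.m3 (h : IsR L δ s a n R) (hT : T ≤ N) {l p q : ℕ} (hl : l ≤ T)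
    (hp : p < L.len s (T - l)) (hq : q < n * L.B (s + 1)) (hv : L.Val (s + 1) T q) :
    L.cf _ (s + 1) T q (D3 δ (L.bs _ s T (l * L.B s + p))) =
      (fld 12 (M3 L R s T l p) q % 2 ^ 4 : ℕ) := by
  obtain ⟨T, rfl⟩ := Nat.exists_eq_add_of_le' hl
  rw [Nat.add_sub_cancel] at hp
  rw [add_comm _ p, L.bs_shift, D3_smul, cf_smul_row (h.three T (by omega) p hp) hq hv, M3,
    Nat.sub_eq, Nat.add_sub_cancel]
  rfl

theorem IsR.m9 (h : IsR L δ s a n R) (hT : T ≤ N) {l p q : ℕ} (hl : l ≤ T)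
    (hp : p < L.len s (T - l)) (hq : q < a * L.B (s + 1)) (hv : L.Val (s + 1) T q) :
    L.cf _ (s + 1) T q (X0 3 δ (L.bs _ s T (l * L.B s + p))) =
      (fld 12 (M9 L R s T l p) q % 2 ^ 4 : ℕ) := by
  obtain ⟨T, rfl⟩ : ∃ T', T = T' + 3 * (l / 3) := ⟨T - 3 * (l / 3), by omega⟩
  have e : l * L.B s + p = l % 3 * L.B s + p + 3 * (l / 3) * L.B s := by
    conv_lhs => rw [← Nat.mod_add_div l 3]
    ring
  rw [e, L.bs_shift, X0_smul _ (eta9 _), cf_smul_row (h.nine T (by omega) _ (by omega) (by omega) p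
    (by rwa [show T - l % 3 = T + 3 * (l / 3) - l by omega])) hq hv, M9, Nat.add_sub_cancel]
  rfl

theorem D3_Fil {l : ℕ} {c : ι → Av (ZMod 3)} (h : c ∈ Fil (ZMod 3) l) : D3 δ c ∈ Fil (ZMod 3) l := by
  obtain ⟨c, rfl⟩ := Fil_iff.1 h
  exact Fil_iff.2 ⟨_, D3_smul _ _ _⟩

theorem run_aux {n c : ℕ} (hn : 0 < n) (hc : c ≤ n) (s : ℕ) :
    0 < n * max (L.B s) (L.B (s + 1)) ∧ c * L.B (s + 1) ≤ n * max (L.B s) (L.B (s + 1)) ∧
      n * L.B s ≤ n * max (L.B s) (L.B (s + 1)) :=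
  ⟨Nat.mul_pos hn ((L.B_pos s).trans_le (le_max_left _ _)), Nat.mul_le_mul hc (le_max_right _ _),
    Nat.mul_le_mul_left _ (le_max_left _ _)⟩

theorem chk3_spec (hR : IsR L δ s a (P.Nn s) R) (hT : T ≤ N) (hB : L.B s ≤ 88) (hN : 0 < P.Nn s)
    (h : chk3 L P R s T = true) : ∀ t ∈ ts3 L P s T, ∃ y, t.2 y = true ∧
      ∀ q < P.Nn s * L.B (s + 1), L.Val (s + 1) T q →
        L.cf _ (s + 1) T q (D3 δ (L.vec _ s T t.1)) = fld 12 y q := fun t ht => by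
  rw [chk3, frc_eq] at h
  obtain ⟨h1, h2, h3⟩ := run_aux (L := L) (lt_min hN T.succ_pos) le_rfl s
  obtain ⟨y, h4, h5⟩ := runT_spec two3 h1 h2 (fun l _ => L.len_le _ _ ((Nat.sub_le _ _).trans hT))
    hB h3 h t ht
  refine ⟨y, h4, fun q hq hv => ?_⟩
  rw [h5 q (hv.lt hq)]
  refine (L.map_cmb hT (L.cf _ (s + 1) T q ∘ₗ XL (mapM r3 δ))
    (fun c hc => L.cf_Fil (D3_Fil hc) hq) _).trans ?_
  refine sum_congr rfl fun l hl => sum_congr rfl fun p hp => congrArg _ ?_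
  exact hR.m3 hT (Nat.le_of_lt_succ ((mem_range.1 hl).trans_le (min_le_right _ _))) (mem_range.1 hp)
    hq hv

theorem chk9_spec (hR : IsR L δ s (P.aa s) n R) (hT : T ≤ N) (hB : L.B s ≤ 88)
    (hr : P.τ.reg s T = true) (h : chk9 L P R s T = true) {i : ℕ} (hi : i < P.τ.dim s T) :
    ∃ y, bokT L P s T i y = true ∧ ∀ q < P.aa s * L.B (s + 1), L.Val (s + 1) T q →
      L.cf _ (s + 1) T q (X0 3 δ (L.vec _ s T (gz P N s T i))) = fld 12 y q := by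
  rw [chk9, hr, Bool.not_true, Bool.false_or, frc_eq] at h
  obtain ⟨h1, h2, h3⟩ := run_aux (L := L) (lt_min (P.aa s).succ_pos T.succ_pos)
    (min_le_min_right _ (P.aa s).le_succ) s
  obtain ⟨y, h4, h5⟩ := runT_spec two9 h1 h2 (fun l _ => L.len_le _ _ ((Nat.sub_le _ _).trans hT))
    hB h3 h _ (List.mem_map.2 ⟨i, List.mem_range.2 hi, rfl⟩)
  refine ⟨y, h4, fun q hq hv => ?_⟩
  rw [h5 q (hv.lt hq)]
  refine (L.map_cmb hT (L.cf _ (s + 1) T q ∘ₗ XL δ)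
    (fun c hc => L.cf_Fil (X0_Fil' δ hc) hq) _).trans ?_
  refine sum_congr rfl fun l hl => sum_congr rfl fun p hp => congrArg _ ?_
  exact hR.m9 hT (Nat.le_of_lt_succ ((mem_range.1 hl).trans_le (min_le_right _ _))) (mem_range.1 hp)
    hq hv

theorem cel_ok (h : (cel P N s T).ok = true) : s ≤ P.S ∧ T ≤ N := by
  by_contra h1
  rw [cel, Bool.cond_eq_ite, if_neg (by simpa using h1)] at h
  cases h

theorem cel_xs {t : ℕ × ℕ} (h : t ∈ (cel P N s T).xs) : s ≤ P.S ∧ T ≤ N := by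
  by_contra h1
  rw [cel, Bool.cond_eq_ite, if_neg (by simpa using h1)] at h
  cases h

theorem cast_of_mod {m x e : ℕ} (h : Nat.beq (x % m) e = true) : (x : ZMod m) = e := by
  rw [← Nat.eq_of_beq_eq_true h, ZMod.natCast_mod]

theorem fld_mod12 (y q : ℕ) : fld 12 y q % 2 ^ 12 = fld 12 y q := Nat.mod_eq_of_lt (fld_lt _ _ _)

variable (L P) in
/-- the functionals -/
def lam (s T : ℕ) : (ι → Av (ZMod 3)) →ₗ[ZMod 3] (ℕ → ZMod 3) :=
  LinearMap.pi fun i => if i < P.τ.dim s T then L.lamK _ s T (gW P N s T i) (gl P N s T i) else 0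

theorem lam_lt {i : ℕ} (h : i < P.τ.dim s T) (c : ι → Av (ZMod 3)) :
    lam L P s T c i = L.lamK _ s T (gW P N s T i) (gl P N s T i) c := by
  rw [lam, LinearMap.pi_apply, if_pos h]

theorem lam_ge {i : ℕ} (h : P.τ.dim s T ≤ i) (c : ι → Av (ZMod 3)) : lam L P s T c i = 0 := by
  rw [lam, LinearMap.pi_apply, if_neg h.not_gt]
  rfl

theorem lam_zero {c : ι → Av (ZMod 3)} (h : ∀ i < P.τ.dim s T,
    L.lamK _ s T (gW P N s T i) (gl P N s T i) c = 0) : lam L P s T c = 0 := funext fun i => by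
  rcases lt_or_ge i (P.τ.dim s T) with hi | hi
  exacts [(lam_lt hi c).trans (h i hi), lam_ge hi c]

theorem Top.lam {i : ℕ} {g : ι} (h : Top L P s T i g) (hT : T ≤ N) (c : ι → Av (ZMod 3)) :
    lam L P s T c i = constantCoeff (c g) := by
  obtain ⟨q, h1, h2, h3, h4, h5, h6⟩ := h
  have h7 : q < L.B s := h4.trans_le (L.len_le _ _ hT)
  have h8 : L.Val s T q := by simpa using L.val_of hT (l := 0) T.zero_le h4
  rw [lam_lt h1, h2, h3, L.lamK_apply, one_mul, sum_eq_single_of_mem q (mem_range.2 h7)]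
  · have h9 := fld_shl 12 1 0 q
    rw [zero_add] at h9
    rw [dg, h9, L.cf_val h8, Lay.mm, Lay.gg, Nat.div_eq_of_lt h7, Nat.mod_eq_of_lt h7, Nat.sub_zero,
      h5, h6]
    simp [fld, constantCoeff_eq]
  · intro r _ hr
    rw [dg, show fld 12 (1 <<< (12 * q)) r = 0 from ?_]
    · simp
    rcases lt_or_gt_of_ne hr with hr | hr
    · exact fld_shl_lt _ _ hr
    · obtain ⟨r, rfl⟩ := Nat.exists_eq_add_of_le' hr.le
      rw [fld_shl]
      exact fld_of_lt (n := 1) (by norm_num) (by omega)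

open Classical in
/-- the source with a given pivot -/
def xOf (l : List (ℕ × ℕ)) (r : ℕ) : ℕ := if h : ∃ x, (r, x) ∈ l then h.choose else 0

theorem xOf_mem {l : List (ℕ × ℕ)} {r : ℕ} (h : r ∈ (l.map Prod.fst).toFinset) : (r, xOf l r) ∈ l := by
  have h1 : ∃ x, (r, x) ∈ l := by simpa using h
  rw [xOf, dif_pos h1]
  exact h1.choose_spec

end Vale.Agent.P236T
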