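import Vale.Agent.P236T.Snd

/-!
# P236, block TABC: soundness of the checker, the certificate
-/

set_option linter.unusedSectionVars false

noncomputable section

namespace Vale.Agent.P236T

open Vale.Agent.P236A Vale.Agent.P236C Vale.Agent.P236K MvPolynomial Finset

variable {ι : Type} [Fintype ι] [DecidableEq ι] {Γ : Gens ι} {N : ℕ} {L : Lay Γ N} {P : Pr}
  {δ : Mat ι (Av (ZMod 9))} {s T : ℕ}

theorem chkS_spec (h : chkS L P s = true) : L.B s ≤ 88 ∧ 0 < P.Nn s ∧
    piv (fun T => (cel P N s T).xs) (P.rho s) (L.B (s + 1)) (N + 1) 0 0 0 = true ∧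
      ∀ T ≤ N, chkV L P s T = true ∧ chkO L P s T = true ∧ chkM L P s T = true := by
  simp only [chkS, Bool.and_eq_true, decide_eq_true_eq] at h
  exact ⟨h.1, h.2.1, h.2.2.1, fun T hT => by
    simpa only [Bool.and_eq_true] using allLt_spec h.2.2.2 T (Nat.lt_succ_of_le hT)⟩

theorem chkV_spec (h : chkV L P s T = true) {i : ℕ} (hi : i < P.τ.dim s T) :
    L.Supp s T (gl P N s T i) ∧ L.Supp s T (gz P N s T i) ∧ gW P N s T i ≤ (cel P N s T).D ∧
      ∀ l < P.τ.dim s T, (vl L P 2 s T l (gz P N s T i) : ZMod 3) = if l = i then 1 else 0 := by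
  have h1 := allLt_spec h i hi
  simp only [Bool.and_eq_true, decide_eq_true_eq] at h1
  refine ⟨sup_spec L h1.1, sup_spec L h1.2.1, h1.2.2.1, fun l hl => ?_⟩
  rw [cast_of_mod (allLt_spec h1.2.2.2 l hl), Bool.cond_eq_ite]
  simp

theorem chkO_spec (h : chkO L P s T = true) (hok : (cel P N s T).ok = true) :
    min (cel P N s T).A (T + 1) ≤ (cel P N s T).D ∧
    L.dim s T ≤ Nat.rec 0 (fun s _ => P.rho s T) s + P.rho s T + P.τ.dim s T ∧
    ∀ d < (cel P N s T).D, d ≤ T → ∀ t ∈ (cel P N s (T - d)).xs,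
      t.1 + d * L.B (s + 1) < P.Nn s * L.B (s + 1) ∨ (cel P N s T).A ≤ d ∧
        ∀ l < P.τ.dim s T, (vl L P 2 s T l (t.2 <<< (12 * (d * L.B s))) : ZMod 3) = 0 := by
  simp only [chkO, hok, Bool.not_true, Bool.false_or, Bool.and_eq_true, decide_eq_true_eq,
    Nat.ble_eq, sumLt_eq] at h
  refine ⟨h.1, h.2.1, fun d h1 h2 t ht => ?_⟩
  have h3 := List.all_eq_true.1 (allLt_spec h.2.2 d (lt_min h1 (Nat.lt_succ_of_le h2))) t ht
  simp only [Bool.or_eq_true, Bool.and_eq_true, Nat.ble_eq, Nat.blt_eq] at h3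
  refine h3.imp_right fun h4 => ⟨h4.1, fun l hl => ?_⟩
  have h5 := allLt_spec h4.2 l hl
  exact (cast_of_mod h5).trans Nat.cast_zero

theorem ent_spec {e : ℕ} {b : Bool} (h : (Nat.ble 3 e || b) = true) (he : e < 3) : b = true := by
  rw [Bool.or_eq_true, Nat.ble_eq] at h
  exact h.resolve_left he.not_ge

theorem r3_cancel : ∀ a b : ZMod 9, 3 * a = 3 * b → r3 a = r3 b := by decide

/-- **Soundness of the checker.** -/
theorem cert_of (hδ : HomD 3 Γ δ) (hG : Gd L P) (hS : ∀ s ≤ P.S, chkS L P s = true)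
    (hR : ∀ s ≤ P.S, ∀ T ≤ N, ∃ R, IsR L δ s (P.aa s) (P.Nn s) R ∧ chkR L P R s T = true) :
    Nonempty (Cert Γ δ P.τ P.S N P.aa P.Nn) := by
  have H := fun s hs => chkS_spec (hS s hs)
  have V := fun {s T} hs hT {i} => chkV_spec (i := i) ((H s hs).2.2.2 T hT).1
  have O := fun {s T} (h : (cel P N s T).ok = true) =>
    chkO_spec ((H s (cel_ok h).1).2.2.2 T (cel_ok h).2).2.1 h
  have M := fun {s T} (h : P.τ.reg s T = true) =>
    ((H s (Nat.le_of_succ_le (hG.reg h).1)).2.2.2 T (hG.reg h).2).2.2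
  have C : ∀ {s T}, s ≤ P.S → T ≤ N → P.rho s T ≤
      (L.Pv (fun s T => ((cel P N s T).xs.map Prod.fst).toFinset) s T).card := fun hs hT =>
    piv_spec L (xs := fun s T => (cel P N s T).xs) (H _ hs).2.2.1 (Nat.lt_succ_of_le hT)
  have R3 : ∀ {s T}, s ≤ P.S → T ≤ N → ∀ t ∈ ts3 L P s T, ∃ y, t.2 y = true ∧
      ∀ q < P.Nn s * L.B (s + 1), L.Val (s + 1) T q →
        L.cf _ (s + 1) T q (D3 δ (L.vec _ s T t.1)) = fld 12 y q := fun {s T} hs hT => by
    obtain ⟨R, h1, h2⟩ := hR s hs T hT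
    exact chk3_spec h1 hT (H s hs).1 (H s hs).2.1 (Bool.and_eq_true_iff.1 h2).1
  refine ⟨{
    L := L
    ok := fun s T => (cel P N s T).ok
    new := fun s T => ((cel P N s T).xs.map Prod.fst).toFinset
    A := fun s T => (cel P N s T).A
    lam := lam L P
    W := gW P N
    x := fun s T r => L.vec _ s T (xOf (cel P N s T).xs r)
    z := fun s T i => L.vec _ s T (gz P N s T i)
    lam_ge := fun s T c i hi => lam_ge hi c
    lam_W := fun s T i c hc => ?_
    src := fun s T r hr => ?_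
    ok_le := fun s T h => (cel_ok h).2
    cnt_zero := fun T h => ?_
    cnt_succ := fun s T h => ?_
    hA := fun s T h d h1 h2 r hr => ?_
    lx := fun s T h d h1 r hr h2 => lam_zero fun l hl => ?_
    ld := fun s T h => ?_
    hz := fun s T h i hi => ?_
    reg := fun s T h => ?_
    reg_zero := hG.reg_zero
    lam_one := funext fun i => ?_
    kap := P.kap
    ex := P.ex
    ms_zero := hG.ms_zero
    mT_zero := hG.mT_zero
    ms_pos := hG.ms_pos
    mul_le := fun k s T i l hk h => (hG.mul h).2.2 hk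
    mul_zero := fun s T i l h h' he hi => ?_
    mul_pos := fun k s T i l hk h he hi => ?_
    bok := fun s T i l h he hi => ?_
    lead := fun j hj => ?_ }⟩
  · rcases lt_or_ge i (P.τ.dim s T) with hi | hi
    exacts [(lam_lt hi c).trans (L.lamK_Fil _ _ _ hc), lam_ge hi c]
  · have h1 := xOf_mem hr
    obtain ⟨hs, hT⟩ := cel_xs h1
    obtain ⟨y, h2, h3⟩ := R3 hs hT _ (List.mem_append_left _ (List.mem_map.2 ⟨_, h1, rfl⟩))
    simp only [srcT, Bool.and_eq_true, decide_eq_true_eq, Bool.not_eq_true'] at h2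
    refine ⟨h2.1, L.cmb_cl hT _, fun h4 => Nat.ne_of_beq_eq_false h2.2.2.2 ?_, fun q hq => ?_⟩
    · rw [h3 r h2.1 h2.2.1, ZMod.natCast_eq_zero_iff] at h4
      omega
    · by_cases hv : L.Val (s + 1) T q
      exacts [(h3 q (hq.trans h2.1) hv).trans (div3_spec h2.2.2.1 hq), L.cf_not hv _]
  · have h1 : L.dim 0 T ≤ 0 + P.rho 0 T + P.τ.dim 0 T := (O h).2.1
    have := C (cel_ok h).1 (cel_ok h).2
    omega
  · have h1 : L.dim (s + 1) T ≤ P.rho s T + P.rho (s + 1) T + P.τ.dim (s + 1) T := (O h).2.1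
    have := C (cel_ok h).1 (cel_ok h).2
    have := C (Nat.le_of_succ_le (cel_ok h).1) (cel_ok h).2
    omega
  · have h3 := (O h).1
    exact ((O h).2.2 d (by omega) h2 _ (xOf_mem hr)).resolve_right fun h4 => h4.1.not_gt h1
  · rcases lt_or_ge d (cel P N s T).D with h3 | h3
    · obtain ⟨T, rfl⟩ := Nat.exists_eq_add_of_le' h1
      have h4 := (((O h).2.2 d h3 h1 _ (xOf_mem hr)).resolve_left h2.not_gt).2 l hl
      rw [Nat.add_sub_cancel] at h4 ⊢
      rw [L.lamK_dot tw3 (b := 2) (by norm_num) (V (cel_ok h).1 (cel_ok h).2 hl).1 fun q _ hv =>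
        L.cf_smul_vec (by have := (cel_ok h).2; omega) _ hv]
      exact h4
    · exact L.lamK_Fil _ _ _ (Fil_mono ((V (cel_ok h).1 (cel_ok h).2 hl).2.2.1.trans h3)
        (Fil_iff.2 ⟨_, rfl⟩))
  · obtain ⟨hs, hT⟩ := cel_ok h
    obtain ⟨R, h1, h2⟩ := hR s (by omega) T hT
    have h3 := (Bool.and_eq_true_iff.1 (Bool.and_eq_true_iff.1 h2).2).2
    rw [chkL, h, Bool.not_true, Bool.false_or] at h3
    have h4 := fun i hi => Bool.and_eq_true_iff.1 (allLt_spec h3 i hi)
    refine ⟨fun i hi => of_decide_eq_true (h4 i hi).1, fun c hc => lam_zero fun i hi => ?_⟩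
    rw [L.eq_cmb hT hc]
    refine (L.map_cmb hT (L.lamK _ (s + 1) T _ _ ∘ₗ XL (mapM r3 δ))
      (fun c hc => L.lamK_Fil _ _ _ (D3_Fil hc)) _).trans ?_
    refine sum_eq_zero fun l hl => sum_eq_zero fun p hp => mul_eq_zero_of_right _ ?_
    rw [mem_range] at hl hp
    refine (L.lamK_dot tw3 (b := 4) (by norm_num) (V hs hT hi).1 fun q hq hv => h1.m3 hT
      (Nat.le_of_lt_succ (hl.trans_le (min_le_right _ _))) hp
      (hq.trans_le (Nat.mul_le_mul_right _ (of_decide_eq_true (h4 i hi).1))) hv).trans ?_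
    exact (cast_of_mod (allLt_spec (allLt_spec (h4 i hi).2 l hl) p hp)).trans Nat.cast_zero
  · obtain ⟨hs, hT⟩ := cel_ok h
    obtain ⟨y, h2, h3⟩ := R3 hs hT _ (List.mem_append_right _ (List.mem_append_left _
      (List.mem_map.2 ⟨i, List.mem_range.2 hi, rfl⟩)))
    rw [L.rc_vec hT]
    refine ⟨L.cmb_cl hT _, L.Fil_of_cf hT (Cl.D3 hδ (L.cmb_cl hT _)) fun q hq => ?_,
      funext fun l => ?_⟩
    · by_cases hv : L.Val (s + 1) T q
      exacts [(h3 q hq hv).trans (div3_spec h2 (hv.lt hq)), L.cf_not hv _]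
    · rcases lt_or_ge l (P.τ.dim s T) with hl | hl
      · rw [lam_lt hl, Pi.single_apply]
        exact (L.lamK_dot tw3 (b := 2) (y := gz P N s T i) (by norm_num) (V hs hT hl).1
          fun q _ hv => L.cf_cmb hT _ hv).trans ((V hs hT hi).2.2.2 l hl)
      · rw [lam_ge hl, Pi.single_eq_of_ne (by omega)]
  · have h1 := M h
    simp only [chkM, h, Bool.not_true, Bool.false_or, Bool.and_eq_true] at h1
    exact ⟨h1.1, h1.2.1, (hG.reg h).1⟩
  · cases i with
    | zero => simp [hG.top_zero.lam N.zero_le]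
    | succ i => rw [lam_ge (by rw [hG.dim_zero]; omega), Pi.single_eq_of_ne i.succ_ne_zero]
  · have h1 := M h
    simp only [chkM, h, h', Bool.not_true, Bool.false_or, Bool.and_eq_true] at h1
    have hl := (hG.mul he).2.1
    rw [hG.ms_zero, hG.mT_zero, zero_add, add_comm] at hl
    have hT := (hG.reg h).2
    rw [L.rc_vec hT, lam_lt hl, ← pow_one (X 0), L.lamK_dot tw3 (b := 2) (by norm_num)
      (V (Nat.le_of_succ_le (hG.reg h).1) (hG.reg h').2 hl).1 fun q _ hv => L.cf_smul_vec hT _ hv]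
    exact cast_of_mod (ent_spec (allLt_spec (allLt_spec h1.2.2 i hi) l hl) he)
  · obtain ⟨hK, hl, hT⟩ := hG.mul he
    replace hT := hT hk
    obtain ⟨e1, -, e2⟩ := hG.ms_pos k hk
    rw [e1, add_comm 1] at hl
    have hs := (hG.reg h).1
    obtain ⟨y, h2, h3⟩ := R3 (Nat.le_of_succ_le hs) hT (gz P N s T i, muT L P k s T i)
      (List.mem_append_right _ (List.mem_append_right _ (List.mem_flatMap.2
        ⟨k, List.mem_range.2 hK, by
          rw [Nat.add_sub_cancel, Bool.cond_eq_ite, if_pos (by simp [hk, h]; omega)]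
          exact List.mem_map.2 ⟨i, List.mem_range.2 hi, rfl⟩⟩)))
    simp only [muT, frc_eq] at h2
    have h4 := ent_spec (allLt_spec h2 l hl) he
    simp only [Bool.and_eq_true, decide_eq_true_eq] at h4
    refine ⟨h4.1, h4.2.1, fun c' hc' => ?_⟩
    have e3 : P.τ.mT k + T + 3 ^ P.ex k = T + 4 * P.kap k := by omega
    have hU : P.τ.mT k + T ≤ N := (Nat.le_add_right _ _).trans (e3.trans_le hT)
    rw [lam_lt hl, L.lamK_dot tw3 (b := 12) le_rfl (V hs hU hl).1 fun q hq hv => ?_]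
    · exact cast_of_mod h4.2.2
    rw [fld_mod12, fld_shr, ← L.cf_shift _ _ _ (3 ^ P.ex k), e3, ← h3 _ (by
      have := Nat.mul_le_mul_right (L.B (s + 1)) h4.2.1
      rw [add_mul] at this
      omega) (e3 ▸ (L.val_shift _ _ _ _).2 hv), ← L.vec_v2 hG.v2
        (V (Nat.le_of_succ_le hs) (hG.reg h).2 hi).2.1 hT, ← L.rc_vec (hG.reg h).2, eq_comm,
      ← sub_eq_zero, ← map_sub]
    exact L.cf_Fil hc' (by rw [add_mul]; omega)
  · obtain ⟨hs, hT⟩ := hG.reg h
    have hl := hG.bok he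
    obtain ⟨R, h1, h2⟩ := hR s (by omega) T hT
    obtain ⟨y, h3, h4⟩ := chk9_spec h1 hT (H s (by omega)).1 h
      (Bool.and_eq_true_iff.1 (Bool.and_eq_true_iff.1 h2).2).1 hi
    have h5 := ent_spec (allLt_spec h3 l hl) he
    simp only [Bool.and_eq_true, decide_eq_true_eq] at h5
    refine ⟨h5.1, h5.2.1, fun y' hy => ?_⟩
    have h6 := L.lamK_Fil (s + 1) T (gl P N (s + 1) T l) hy
    rw [map_sub, L.lamK_dot tw9 (b := 12) (y := y) le_rfl (V hs hT hl).1 fun q hq hv => by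
      rw [fld_mod12, h4 q (hq.trans_le (Nat.mul_le_mul_right _ h5.1)) hv], map_zsmul,
      sub_eq_zero] at h6
    rw [lam_lt hl, L.lamK_rc, ← map_natCast r3]
    refine r3_cancel _ _ ?_
    have h7 := cast_of_mod h5.2.2
    rw [vl, h6] at h7
    simpa using h7
  · obtain ⟨h1, g, h2, h3⟩ := hG.lead j hj
    exact ⟨h1, g, h2, h3.lam (hG.reg h1).2⟩

end Vale.Agent.P236T
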