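import Vale.Agent.P236T.Lay0
import Vale.Agent.P236Q.Pack

/-!
# P236, block TABC: the table and the parameters
-/

noncomputable section

namespace Vale.Agent.P236T

open Vale.Agent.P236A Vale.Agent.P236C Vale.Agent.P236K MvPolynomial

/-- search trees -/
inductive Bt (α : Type) : Type
  | leaf (a : α) : Bt α
  | node (p : ℕ) (l r : Bt α) : Bt α

/-- the entry with the key `n` -/
def Bt.get {α : Type} (t : Bt α) (n : ℕ) : α :=
  Bt.rec (fun w => w) (fun p _ _ il ir => Bool.rec il ir (Nat.ble p n)) t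

/-- the exponent of `3` -/
def ex0 (k : ℕ) : ℕ := cond (Nat.beq (k % 9) 0) 2 (cond (Nat.beq (k % 3) 0) 1 0)

/-- the dimension -/
def dim0 (t : P236Q.Tr) (s T : ℕ) : ℕ := Nat.mod (Nat.shiftRight (P236Q.cw t s T) 1) 32

/-- the filtration of a multiplier -/
def ms0 (k : ℕ) : ℕ := cond (Nat.beq k 0) 0 1

/-- the degree of a multiplier -/
def mT0 (k : ℕ) : ℕ := cond (Nat.beq k 0) 1 (4 * k - 3 ^ ex0 k)

/-- The table: the multiplier `0` is `v_1`, the multiplier `k > 0` is `d (v_2 ^ k) / v_1 ^ j`. -/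
def tab0 (t : P236Q.Tr) (K LD : ℕ) : Tab where
  reg s T := Nat.blt s 23 && (Nat.ble T 94 && Nat.beq (Nat.mod (P236Q.cw t s T) 2) 1)
  dim := dim0 t
  ms := ms0
  mT := mT0
  mul k s T i l := cond (Nat.blt k K && ((Nat.beq k 0 || Nat.ble (T + 4 * k) 94) &&
    Nat.blt l (dim0 t (ms0 k + s) (mT0 k + T)))) (P236Q.ent t K (Nat.add k 2) s T i l) 3
  bok s T i l := cond (Nat.blt l (dim0 t (s + 1) T)) (P236Q.ent t K 0 s T i l) 3
  lead := P236Q.fld LD

/-- the parameters -/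
def par0 (t : P236Q.Tr) (K LD : ℕ) (aa Nn : ℕ → ℕ) (cd : Bt (Bt Cd)) (rh : List ℕ) : Pr where
  S := 23
  K := K
  aa := aa
  Nn := Nn
  kap k := k
  ex := ex0
  τ := tab0 t K LD
  cd s T := (cd.get s).get T
  rho s T := f16 (rh.getD s 0) T

/-- the check of a top functional -/
def topB (P : Pr) (s T i g : ℕ) : Bool :=
  decide (i < P.τ.dim s T ∧ gW P 94 s T i = 1 ∧ gl P 94 s T i = 1 <<< (12 * ix0 s g) ∧
    ix0 s g < len0 s T ∧ sl0 s T (ix0 s g) = g ∧ g < 64 ∧ gw s g = T)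

theorem topB_spec {P : Pr} {s T i g : ℕ} (h : topB P s T i g = true) :
    Top lay0 P s T i (Fin.ofNat 25 s, Fin.ofNat 64 g) := by
  obtain ⟨h1, h2, h3, h4, h5, h6, h7⟩ := of_decide_eq_true h
  refine ⟨_, h1, h2, h3, h4, congrArg (fun h => (Fin.ofNat 25 s, Fin.ofNat 64 h)) h5, ?_⟩
  show mon4 0 _ _ _ = 0
  rw [h5, cr0, Nat.mod_eq_of_lt h6, h7, show g / 64 = 0 by omega, show g / 512 = 0 by omega]
  simp [mon4]

/-- the global check -/
def chkG (P : Pr) (G : ℕ) : Bool :=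
  P.τ.reg 0 0 && (Nat.beq (P.τ.dim 0 0) 1 && (topB P 0 0 0 0 && allLt 4 fun j =>
    P.τ.reg 2 (3 ^ (j + 1)) && (topB P 2 (3 ^ (j + 1)) (P.τ.lead j) (f8 G j) &&
      allLt 64 fun k => decide (gw 2 k = 3 ^ (j + 1) → k = f8 G j))))

theorem gd_of {t : P236Q.Tr} {K LD G : ℕ} {aa Nn : ℕ → ℕ} {cd : Bt (Bt Cd)} {rh : List ℕ}
    (h : chkG (par0 t K LD aa Nn cd rh) G = true) : Gd lay0 (par0 t K LD aa Nn cd rh) := by
  simp only [chkG, Bool.and_eq_true, Nat.beq_eq] at h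
  refine ⟨lay0_v2, fun h1 => ?_, fun h1 => ?_, fun h1 => ?_, rfl, rfl, fun k hk => ?_, h.1, h.2.1,
    topB_spec h.2.2.1, fun j hj => ?_⟩
  · simp only [par0, tab0, Bool.and_eq_true, Nat.blt_eq, Nat.ble_eq] at h1
    exact ⟨h1.1, h1.2.1⟩
  · simp only [par0, tab0, Bool.cond_eq_ite, Bool.and_eq_true, Bool.or_eq_true, Nat.blt_eq,
      Nat.ble_eq, Nat.beq_eq] at h1
    split_ifs at h1 with h2
    exacts [⟨h2.1, h2.2.2, fun hk => h2.2.1.resolve_left hk.ne'⟩, absurd h1 (lt_irrefl _)]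
  · simp only [par0, tab0, Bool.cond_eq_ite, Nat.blt_eq] at h1
    split_ifs at h1 with h2
    exacts [h2, absurd h1 (lt_irrefl _)]
  · simp only [par0, tab0, ms0, mT0, ex0, Bool.cond_eq_ite, Nat.beq_eq, if_neg hk.ne', true_and]
    split_ifs <;> omega
  · have h1 := allLt_spec h.2.2.2 j (by omega)
    simp only [Bool.and_eq_true] at h1
    refine ⟨h1.1, _, fun g' h2 h3 => ?_, topB_spec h1.2.1⟩
    rw [Gam_deg] at h2
    rw [Gam_wt, h2] at h3
    refine Prod.ext (Fin.ext h2) (Fin.ext ?_)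
    rw [← of_decide_eq_true (allLt_spec h1.2.2 _ g'.2.2) (by omega)]
    exact (Nat.mod_eq_of_lt g'.2.2).symm

end Vale.Agent.P236T
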