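import Vale.Agent.P236T.Cert
import Vale.Agent.P236T.Kron

/-!
# P236, block TABC: vectors and functionals given by digits
-/

set_option linter.unusedSectionVars false

noncomputable section

namespace Vale.Agent.P236T

open Vale.Agent.P236A Vale.Agent.P236C MvPolynomial Finset

variable {ι : Type} [Fintype ι] [DecidableEq ι] {k : Type} [CommRing k] {Γ : Gens ι} {N : ℕ}

theorem fld_shl (w x i j : ℕ) : fld w (x <<< (w * j)) (i + j) = fld w x i := by
  rw [← fld_shr, Nat.shiftLeft_shiftRight]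

theorem fld_shl_lt (w x : ℕ) {i j : ℕ} (h : i < j) : fld w (x <<< (w * j)) i = 0 := by
  have h1 := fld_mod w (x <<< (w * j)) j i
  rw [if_pos h, Nat.shiftLeft_eq x, Nat.mul_mod_left, fld_zero_left] at h1
  rw [Nat.shiftLeft_eq, ← h1]

namespace Lay

variable (L : Lay Γ N) {s T : ℕ}

theorem div_eq {l p : ℕ} (h : p < L.B s) : (l * L.B s + p) / L.B s = l := by
  rw [add_comm, Nat.add_mul_div_right _ _ (L.B_pos s), Nat.div_eq_of_lt h, zero_add]

theorem mod_eq {l p : ℕ} (h : p < L.B s) : (l * L.B s + p) % L.B s = p := by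
  rw [add_comm, Nat.add_mul_mod_self_right, Nat.mod_eq_of_lt h]

theorem val_of (hT : T ≤ N) {l p : ℕ} (hl : l ≤ T) (hp : p < L.len s (T - l)) :
    L.Val s T (l * L.B s + p) := by
  have h := hp.trans_le (L.len_le _ _ (by omega))
  rw [Val, L.div_eq h, L.mod_eq h]
  exact ⟨hl, hp⟩

theorem val_shift (s T r d : ℕ) : L.Val s (T + d) (r + d * L.B s) ↔ L.Val s T r := by
  rw [Val, Nat.add_mul_div_right _ _ (L.B_pos s), Nat.add_mul_mod_self_right,
    Nat.add_sub_add_right, Nat.add_le_add_iff_right, Val]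

theorem Val.lt {L : Lay Γ N} {r n : ℕ} (h : L.Val s T r) (hr : r < n * L.B s) :
    r < min n (T + 1) * L.B s := by
  rw [← Nat.div_lt_iff_lt_mul (L.B_pos s)] at hr ⊢
  exact lt_min hr (Nat.lt_succ_of_le h.1)

/-- the basis vectors -/
def bs (k : Type) [CommRing k] (s T r : ℕ) : ι → Av k :=
  Pi.single (L.gg s T r) (monomial (L.mm s T r) 1)

theorem wt_mm (hT : T ≤ N) {r : ℕ} (h : L.Val s T r) :
    Γ.deg (L.gg s T r) = s ∧ mz 3 (L.mm s T r) + Γ.wt (L.gg s T r) = 2 * (T : ℤ) := by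
  obtain ⟨h1, h2⟩ := L.wt s _ _ ((Nat.sub_le _ _).trans hT) h.2
  refine ⟨h1, ?_⟩
  have h3 : mz 3 (Finsupp.single 0 (r / L.B s)) = 2 * (r / L.B s : ℕ) := by
    simp [mz, Finsupp.weight_single, wz, mul_comm]
  rw [mm, gg, mz, map_add, ← mz, ← mz, add_assoc, h2, h3, Nat.cast_sub h.1]
  ring

theorem bs_cl (hT : T ≤ N) {r : ℕ} (h : L.Val s T r) : Cl Γ s T (L.bs k s T r) := fun g => by
  obtain ⟨h1, h2⟩ := L.wt_mm hT h
  rw [bs]
  by_cases hg : g = L.gg s T r
  · rw [hg, Pi.single_eq_same]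
    exact ⟨isWeightedHomogeneous_monomial _ _ _ (eq_sub_iff_add_eq.2 h2), fun h => absurd h1 h⟩
  · rw [Pi.single_eq_of_ne hg]
    exact ⟨isWeightedHomogeneous_zero _ _ _, fun _ => rfl⟩

theorem bs_shift (s T r d : ℕ) :
    L.bs k s (T + d) (r + d * L.B s) = (X 0 : Av k) ^ d • L.bs k s T r := by
  rw [bs, bs, mm, gg, Nat.add_mul_div_right _ _ (L.B_pos s), Nat.add_mul_mod_self_right,
    Nat.add_sub_add_right, ← Pi.single_smul', X_pow_eq_monomial, smul_eq_mul, monomial_mul, one_mul,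
    add_comm _ d, Finsupp.single_add, add_assoc]
  rfl

theorem bs_Fil (s T r : ℕ) : L.bs k s T r ∈ Fil k (r / L.B s) := fun g =>
  dvd_iff_coeff.2 fun K hK => by
    rw [bs, Pi.single_apply]
    split_ifs
    · rw [coeff_monomial, if_neg]
      rintro rfl
      rw [mm_zero] at hK
      omega
    · rfl

theorem cf_bs (hT : T ≤ N) {r : ℕ} (h : L.Val s T r) (r' : ℕ) :
    L.cf k s T r' (L.bs k s T r) = if r' = r then 1 else 0 := by
  split_ifs with h1
  · rw [h1, L.cf_val h, bs, Pi.single_eq_same, coeff_monomial, if_pos rfl]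
  by_cases h' : L.Val s T r'
  swap
  · exact L.cf_not h' _
  rw [L.cf_val h', bs, Pi.single_apply]
  split_ifs with h2
  swap
  · rfl
  rw [coeff_monomial, if_neg fun h3 => h1 ?_]
  have h4 : r / L.B s = r' / L.B s := by rw [← L.mm_zero s T, h3, mm_zero]
  rw [mm, mm, h4, add_right_inj] at h3
  rw [gg, gg, h4] at h2
  have h5 := L.inj s _ _ _ ((Nat.sub_le _ _).trans hT) h'.2 (h4 ▸ h.2) h2 h3.symm
  rw [← Nat.div_add_mod r' (L.B s), h5, ← h4, Nat.div_add_mod]

theorem eq_of_cf (hT : T ≤ N) {c c' : ι → Av k} (hc : Cl Γ s T c) (hc' : Cl Γ s T c')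
    (h : ∀ r, L.Val s T r → L.cf k s T r c = L.cf k s T r c') : c = c' := by
  have h1 : Cl Γ s T (c - c') := (ClS Γ k s T).sub_mem hc hc'
  refine sub_eq_zero.1 (funext fun g => MvPolynomial.ext _ _ fun K => ?_)
  by_contra h0
  have hg : Γ.deg g = s := by
    by_contra hg
    exact h0 (by rw [(h1 g).2 hg]; rfl)
  obtain ⟨r, h2, -, rfl, rfl⟩ := L.exists_val hT hg
    (eq_sub_iff_add_eq.1 ((h1 g).1 h0 : mz 3 K = _))
  exact h0 (by rw [← L.cf_val h2, map_sub, h r h2, sub_self, Pi.zero_apply, coeff_zero])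

/-- the vector with given coordinates -/
def cmb (s T : ℕ) (a : ℕ → k) : ι → Av k :=
  ∑ l ∈ range (T + 1), ∑ p ∈ range (L.len s (T - l)), a (l * L.B s + p) • L.bs k s T (l * L.B s + p)

theorem cmb_cl (hT : T ≤ N) (a : ℕ → k) : Cl Γ s T (L.cmb s T a) :=
  (ClS Γ k s T).sum_mem fun _ hl => (ClS Γ k s T).sum_mem fun _ hp => (ClS Γ k s T).smul_mem _
    (L.bs_cl hT (L.val_of hT (Nat.le_of_lt_succ (mem_range.1 hl)) (mem_range.1 hp)))

theorem cf_cmb (hT : T ≤ N) (a : ℕ → k) {r : ℕ} (h : L.Val s T r) :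
    L.cf k s T r (L.cmb s T a) = a r := by
  have e : r / L.B s * L.B s + r % L.B s = r := Nat.div_add_mod' _ _
  rw [cmb, map_sum, sum_eq_single_of_mem (r / L.B s) (mem_range.2 (Nat.lt_succ_of_le h.1)),
    map_sum, sum_eq_single_of_mem (r % L.B s) (mem_range.2 h.2), e, map_smul, L.cf_bs hT h,
    if_pos rfl, smul_eq_mul, mul_one]
  · intro p hp h1
    rw [map_smul, L.cf_bs hT (L.val_of hT h.1 (mem_range.1 hp)), if_neg (by omega), smul_zero]
  · intro l hl h1
    rw [map_sum]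
    refine sum_eq_zero fun p hp => ?_
    rw [map_smul, L.cf_bs hT (L.val_of hT (Nat.le_of_lt_succ (mem_range.1 hl)) (mem_range.1 hp)),
      if_neg, smul_zero]
    rintro rfl
    exact h1 (L.div_eq ((mem_range.1 hp).trans_le (L.len_le _ _ (by omega)))).symm

theorem eq_cmb (hT : T ≤ N) {c : ι → Av k} (hc : Cl Γ s T c) :
    c = L.cmb s T fun r => L.cf k s T r c :=
  L.eq_of_cf hT hc (L.cmb_cl hT _) fun _ h => by rw [L.cf_cmb hT _ h]

theorem map_cmb (hT : T ≤ N) (φ : (ι → Av k) →ₗ[k] k) {n : ℕ} (h : ∀ c ∈ Fil k n, φ c = 0)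
    (a : ℕ → k) : φ (L.cmb s T a) = ∑ l ∈ range (min n (T + 1)), ∑ p ∈ range (L.len s (T - l)),
      a (l * L.B s + p) * φ (L.bs k s T (l * L.B s + p)) := by
  simp only [cmb, map_sum, map_smul, smul_eq_mul]
  refine (sum_subset (range_mono (min_le_right _ _)) fun l h1 h2 => sum_eq_zero fun p hp => ?_).symm
  rw [mem_range] at h1 h2 hp
  have h3 := L.bs_Fil (k := k) s T (l * L.B s + p)
  rw [L.div_eq (hp.trans_le (L.len_le _ _ (by omega)))] at h3
  simp only [h _ (Fil_mono (show n ≤ l by omega) h3), mul_zero]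

/-- the vector with given digits -/
def vec (k : Type) [CommRing k] (s T x : ℕ) : ι → Av k := L.cmb s T fun r => (dg x r : k)

theorem cf_rc (s T r : ℕ) (c : ι → Av (ZMod 9)) : L.cf _ s T r (rc c) = r3 (L.cf _ s T r c) := by
  by_cases h : L.Val s T r
  · rw [L.cf_val h, L.cf_val h, rc, coeff_map]
  · rw [L.cf_not h, L.cf_not h, map_zero]

theorem rc_bs (s T r : ℕ) : rc (L.bs _ s T r) = L.bs _ s T r := funext fun g => by
  rw [rc, bs, bs, Pi.single_apply, Pi.single_apply]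
  split_ifs <;> simp

theorem rc_vec (hT : T ≤ N) (x : ℕ) : rc (L.vec _ s T x) = L.vec _ s T x :=
  L.eq_of_cf hT (L.cmb_cl hT _).red (L.cmb_cl hT _) fun r h => by
    rw [cf_rc, vec, vec, L.cf_cmb hT _ h, L.cf_cmb hT _ h, map_natCast]

theorem cf_smul_vec {d : ℕ} (hT : T ≤ N) (x : ℕ) {q : ℕ} (h : L.Val s (T + d) q) :
    L.cf k s (T + d) q ((X 0 : Av k) ^ d • L.vec k s T x) =
      (fld 12 (x <<< (12 * (d * L.B s))) q % 2 ^ 2 : ℕ) := by
  rcases lt_or_ge q (d * L.B s) with h1 | h1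
  · rw [fld_shl_lt _ _ h1, L.cf_Fil (Fil_iff.2 ⟨_, rfl⟩) h1]
    simp
  · obtain ⟨q, rfl⟩ := Nat.exists_eq_add_of_le' h1
    rw [cf_shift, fld_shl, vec, L.cf_cmb hT _ ((L.val_shift _ _ _ _).1 h)]
    rfl

/-- the digits vanish at the positions which are not valid -/
def Supp (s T x : ℕ) : Prop := ∀ r, ¬L.Val s T r → dg x r = 0

/-- the functional with given digits -/
def lamK (k : Type) [CommRing k] (s T W x : ℕ) : (ι → Av k) →ₗ[k] k :=
  ∑ r ∈ range (W * L.B s), (dg x r : k) • L.cf k s T r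

theorem lamK_apply (s T W x : ℕ) (c : ι → Av k) :
    L.lamK k s T W x c = ∑ r ∈ range (W * L.B s), (dg x r : k) * L.cf k s T r c := by
  simp [lamK]

theorem lamK_Fil (s T x : ℕ) {W : ℕ} {c : ι → Av k} (hc : c ∈ Fil k W) : L.lamK k s T W x c = 0 := by
  rw [lamK_apply]
  exact sum_eq_zero fun r hr => by rw [L.cf_Fil hc (mem_range.1 hr), mul_zero]

theorem lamK_rc (s T W x : ℕ) (c : ι → Av (ZMod 9)) :
    L.lamK _ s T W x (rc c) = r3 (L.lamK _ s T W x c) := by
  simp [lamK_apply, cf_rc]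

theorem lamK_dot (h12 : (2 : k) ^ 12 = 1) {b W x y : ℕ} (hb : b ≤ 12) (hx : L.Supp s T x)
    {c : ι → Av k} (h : ∀ q < W * L.B s, L.Val s T q →
      L.cf k s T q c = (fld 12 y q % 2 ^ b : ℕ)) :
    L.lamK k s T W x c = (dot (msks b (W * L.B s) x) y : ℕ) := by
  rw [cast_dot h12 hb, lamK_apply]
  refine sum_congr rfl fun r hr => ?_
  by_cases h1 : L.Val s T r
  · rw [h r (mem_range.1 hr) h1]
  · rw [hx r h1, Nat.cast_zero, zero_mul, zero_mul]

/-- the layout is compatible with the multiplication by `v_2` -/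
def V2 : Prop := ∀ s e q, e + 4 ≤ N → q < L.len s e → q < L.len s (e + 4) ∧
  L.gen s (e + 4) q = L.gen s e q ∧ L.mon s (e + 4) q = Finsupp.single 1 1 + L.mon s e q

theorem bs_v2 (hL : L.V2) {r : ℕ} (h : L.Val s T r) (κ : ℕ) (hT : T + 4 * κ ≤ N) :
    L.Val s (T + 4 * κ) r ∧ L.bs k s (T + 4 * κ) r = (X 1 : Av k) ^ κ • L.bs k s T r := by
  induction κ with
  | zero => exact ⟨h, by simp⟩
  | succ κ ih =>
    obtain ⟨h1, h2⟩ := ih (by omega)
    obtain ⟨h3, h4, h5⟩ := hL s (T + 4 * κ - r / L.B s) _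
      ((Nat.add_le_add_right (Nat.sub_le _ _) 4).trans hT) h1.2
    have e : T + 4 * (κ + 1) - r / L.B s = T + 4 * κ - r / L.B s + 4 :=
      Nat.sub_add_comm (m := 4) h1.1
    refine ⟨⟨by have := h.1; omega, by rwa [e]⟩, ?_⟩
    rw [pow_succ', mul_smul, ← h2, bs, bs, gg, mm, e, h4, h5, ← Pi.single_smul', X, smul_eq_mul,
      monomial_mul, one_mul, add_left_comm]
    rfl

theorem vec_v2 (hL : L.V2) {x κ : ℕ} (hx : L.Supp s T x) (hT : T + 4 * κ ≤ N) :
    (X 1 : Av k) ^ κ • L.vec k s T x = L.vec k s (T + 4 * κ) x := by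
  have h1 : ∀ l p, l ≤ T + 4 * κ → p < L.len s (T + 4 * κ - l) →
      ¬(l ≤ T ∧ p < L.len s (T - l)) → dg x (l * L.B s + p) = 0 := fun l p _ hp h => hx _ (by
    have h2 := hp.trans_le (L.len_le _ _ (by omega))
    rwa [Val, L.div_eq h2, L.mod_eq h2])
  rw [vec, vec, cmb, cmb, smul_sum, ← sum_subset (range_mono (show T + 1 ≤ T + 4 * κ + 1 by omega))
    fun l h2 h3 => sum_eq_zero fun p hp => by
      rw [mem_range] at h2 h3 hp
      rw [h1 l p (by omega) hp (by omega), Nat.cast_zero, zero_smul]]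
  refine sum_congr rfl fun l hl => ?_
  have hl' := Nat.le_of_lt_succ (mem_range.1 hl)
  rw [smul_sum, ← sum_subset (s₁ := range (L.len s (T - l))) (s₂ := range (L.len s (T + 4 * κ - l)))
    (fun p hp => ?_) fun p h2 h3 => ?_]
  · exact sum_congr rfl fun p hp => by
      rw [(L.bs_v2 hL (L.val_of (by omega) hl' (mem_range.1 hp)) κ hT).2, smul_comm]
  · have h2 := (L.bs_v2 (k := k) hL (L.val_of (by omega) hl' (mem_range.1 hp)) κ hT).1.2
    have h3 := (mem_range.1 hp).trans_le (L.len_le _ _ (by omega))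
    rwa [L.div_eq h3, L.mod_eq h3, ← mem_range] at h2
  · rw [mem_range] at h2 h3
    rw [h1 l p (by omega) h2 (by omega), Nat.cast_zero, zero_smul]

end Lay

end Vale.Agent.P236T
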